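import Mathlib

/-!
# P254: the algebraic step and the numerical comparison
-/

namespace Vale.Agent.P254s

open scoped Nat

theorem step_ineq {m : ℕ} {A B F H c : ℝ} (hA : 0 < A) (hB : 0 < B) (hF : 0 < F) (hH : 0 ≤ H)
    (hc0 : 0 ≤ c) (hc1 : c ≤ 1) (h1 : A ^ 2 ≤ 2 * B * F) (h2 : B * F ≤ A ^ 2)
    (hIH : 2 ^ (m + 1) * H ^ (m + 1) ≤ F ^ (m + 2))
    (hG : A ^ (m + 3) ≤ 2 ^ (m + 2) * c * B ^ (m + 2)) :
    (A + ((m : ℝ) + 1) * H) * A ≤ ((m : ℝ) + 3 - (1 - c)) * (B * F) := by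
  have hn : (0 : ℝ) < (m : ℝ) + 1 := by positivity
  set y := H * A / (B * F) with hy
  set t := 2 * B * F / A ^ 2 with ht
  set r := 1 - (1 - c) / ((m : ℝ) + 1) with hr
  set z := 1 + (2 - 2 / t) / ((m : ℝ) + 1) with hz
  have ht1 : 1 ≤ t := by rw [ht, le_div_iff₀ (by positivity)]; linarith
  have ht2 : t ≤ 2 := by rw [ht, div_le_iff₀ (by positivity)]; linarith
  have hi : 2 / t ≤ 2 := by rw [div_le_iff₀ (by linarith)]; linarith
  have hr0 : 0 ≤ r := by
    rw [hr, sub_nonneg, div_le_one hn]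
    linarith [(Nat.cast_nonneg m : (0 : ℝ) ≤ m)]
  have hz1 : 1 ≤ z := by
    rw [hz]
    exact le_add_of_nonneg_right (div_nonneg (by linarith) hn.le)
  have hzp : t ≤ z ^ (m + 1) := by
    have hb := one_add_mul_le_pow (a := (2 - 2 / t) / ((m : ℝ) + 1)) (by linarith) (m + 1)
    push_cast at hb
    rw [mul_div_cancel₀ _ hn.ne', ← hz] at hb
    refine le_trans ?_ hb
    have e : 1 + (2 - 2 / t) - t = (2 - t) * (t - 1) / t := by
      field_simp
      ring
    nlinarith [div_nonneg (mul_nonneg (sub_nonneg.2 ht2) (sub_nonneg.2 ht1)) (by linarith : 0 ≤ t)]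
  have hrp : c ≤ r ^ (m + 1) := by
    have hb := one_add_mul_le_pow (a := -((1 - c) / ((m : ℝ) + 1))) (by rw [hr] at hr0; linarith)
      (m + 1)
    push_cast at hb
    rw [mul_neg, mul_div_cancel₀ _ hn.ne', ← sub_eq_add_neg, ← sub_eq_add_neg, ← hr] at hb
    linarith
  have hyp : y ^ (m + 1) ≤ c * t := by
    rw [hy, ht, div_pow, mul_pow, div_le_iff₀ (by positivity)]
    have k1 := mul_le_mul_of_nonneg_right hIH (pow_nonneg hA.le (m + 3))
    have k2 := mul_le_mul_of_nonneg_left hG (pow_nonneg hF.le (m + 2))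
    rw [show c * (2 * B * F / A ^ 2) * (B * F) ^ (m + 1) =
      c * 2 * (F ^ (m + 2) * B ^ (m + 2)) / A ^ 2 by rw [mul_pow]; ring, le_div_iff₀ (by positivity)]
    refine le_of_mul_le_mul_left ?_ (show (0 : ℝ) < 2 ^ (m + 1) by positivity)
    calc (2 : ℝ) ^ (m + 1) * (H ^ (m + 1) * A ^ (m + 1) * A ^ 2)
        = 2 ^ (m + 1) * H ^ (m + 1) * A ^ (m + 3) := by ring
      _ ≤ F ^ (m + 2) * A ^ (m + 3) := k1
      _ ≤ F ^ (m + 2) * (2 ^ (m + 2) * c * B ^ (m + 2)) := k2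
      _ = _ := by ring
  have hyle : y ≤ r * z := by
    refine le_of_pow_le_pow_left₀ (Nat.succ_ne_zero m) (by positivity) (hyp.trans ?_)
    rw [mul_pow]
    exact mul_le_mul hrp hzp (by linarith) (pow_nonneg hr0 _)
  have hrn : ((m : ℝ) + 1) * r = (m : ℝ) + 1 - (1 - c) := by rw [hr]; field_simp
  have hzn : ((m : ℝ) + 1) * z * (B * F) = ((m : ℝ) + 3) * (B * F) - A ^ 2 := by
    rw [hz, ht]
    field_simp
    ring
  have hr1 : r ≤ 1 := by
    rw [hr]; linarith [div_nonneg (by linarith : (0 : ℝ) ≤ 1 - c) hn.le]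
  calc (A + ((m : ℝ) + 1) * H) * A = A ^ 2 + ((m : ℝ) + 1) * (y * (B * F)) := by
        rw [hy]; field_simp
    _ ≤ A ^ 2 + ((m : ℝ) + 1) * (r * z * (B * F)) := by gcongr
    _ = A ^ 2 * (1 - r) + r * ((m : ℝ) + 3) * (B * F) := by
        linear_combination r * hzn
    _ ≤ 2 * B * F * (1 - r) + r * ((m : ℝ) + 3) * (B * F) := by
        linarith [mul_le_mul_of_nonneg_right h1 (sub_nonneg.2 hr1)]
    _ = _ := by linear_combination (B * F) * hrn

theorem factor_le (j : ℕ) (hj : 3 ≤ j) : (((j : ℝ) + 1) / j) ^ (2 * j + 1) ≤ 8 := by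
  rcases lt_or_ge j 16 with h | h
  · interval_cases j <;> norm_num
  have hj0 : (16 : ℝ) ≤ j := by exact_mod_cast h
  have h1 : ((j : ℝ) + 1) / j ≤ Real.exp (1 / j) := by
    refine le_trans (le_of_eq ?_) (Real.add_one_le_exp _)
    field_simp
    ring
  refine (pow_le_pow_left₀ (by positivity) h1 _).trans ?_
  rw [← Real.exp_nat_mul, show ((2 * j + 1 : ℕ) : ℝ) * (1 / j) = 1 + 1 + 1 / (j : ℝ) by
    push_cast; field_simp; ring, Real.exp_add, Real.exp_add]
  have he : Real.exp 1 < 27182818286 / 10000000000 :=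
    lt_of_lt_of_le Real.exp_one_lt_d9 (by norm_num)
  have hs : Real.exp (1 / (j : ℝ)) ≤ 16 / 15 := by
    have h2 := Real.exp_bound_div_one_sub_of_interval (x := (1 / 16 : ℝ)) (by norm_num) (by norm_num)
    refine (Real.exp_le_exp.2 (one_div_le_one_div_of_le (by norm_num) hj0)).trans (h2.trans ?_)
    norm_num
  nlinarith [Real.exp_pos 1, Real.exp_pos (1 / (j : ℝ)),
    mul_le_mul he.le he.le (Real.exp_pos 1).le (by norm_num)]

theorem numeric_all (N : ℕ) (hN : 2 ≤ N) :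
    ((N : ℝ) + 1) ^ (2 * N + 1) < 8 ^ N * (N ! : ℝ) ^ 2 := by
  induction N, hN using Nat.le_induction with
  | base => norm_num [Nat.factorial]
  | succ k hk ih =>
    have hf := factor_le (k + 1) (by omega)
    push_cast at hf ⊢
    rw [div_pow, div_le_iff₀ (by positivity)] at hf
    rw [Nat.factorial_succ]
    push_cast
    calc ((k : ℝ) + 1 + 1) ^ (2 * (k + 1) + 1) ≤ 8 * ((k : ℝ) + 1) ^ (2 * (k + 1) + 1) := hf
      _ = 8 * ((k : ℝ) + 1) ^ 2 * ((k : ℝ) + 1) ^ (2 * k + 1) := by ring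
      _ < 8 * ((k : ℝ) + 1) ^ 2 * (8 ^ k * (k ! : ℝ) ^ 2) := by gcongr
      _ = _ := by ring

end Vale.Agent.P254s
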