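import Mathlib

/-!
# P254: moments of a function with a concave root

For a nonnegative function on a half line whose `N`-th root is concave where it is positive,
the first moment times the value at zero is at most `(N+1)/(N+2)` times the square of the integral.
-/

namespace Vale.Agent.P254s

open MeasureTheory Set

theorem ramp_integrals {c : ℝ} (hc : 0 < c) (N : ℕ) :
    (∫ u in (0 : ℝ)..c, (1 - u / c) ^ N) = c / ((N : ℝ) + 1) ∧
      (∫ u in (0 : ℝ)..c, u * (1 - u / c) ^ N) = c ^ 2 / (((N : ℝ) + 1) * ((N : ℝ) + 2)) := by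
  have hy : ∀ u, HasDerivAt (fun u : ℝ => 1 - u / c) (-(1 / c)) u := fun u => by
    simpa [neg_div] using (((hasDerivAt_id u).div_const c).const_sub 1)
  have h1 : ∀ k : ℕ, (∫ u in (0 : ℝ)..c, (1 - u / c) ^ k) = c / ((k : ℝ) + 1) := by
    intro k
    rw [intervalIntegral.integral_eq_sub_of_hasDerivAt
      (f := fun u => -c / ((k : ℝ) + 1) * (1 - u / c) ^ (k + 1))
      (fun u _ => ?_) ((by fun_prop : Continuous fun u : ℝ => (1 - u / c) ^ k).intervalIntegrable _ _)]
    · simp [div_self hc.ne', neg_div]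
    · refine (((hy u).pow (k + 1)).const_mul (-c / ((k : ℝ) + 1))).congr_deriv ?_
      push_cast
      field_simp
  refine ⟨h1 N, ?_⟩
  have e : (fun u : ℝ => u * (1 - u / c) ^ N) =
      fun u => c * (1 - u / c) ^ N - c * (1 - u / c) ^ (N + 1) := by
    funext u
    rw [pow_succ]
    field_simp
    ring
  rw [e, intervalIntegral.integral_sub
    ((by fun_prop : Continuous fun u : ℝ => c * (1 - u / c) ^ N).intervalIntegrable _ _)
    ((by fun_prop : Continuous fun u : ℝ => c * (1 - u / c) ^ (N + 1)).intervalIntegrable _ _),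
    intervalIntegral.integral_const_mul, intervalIntegral.integral_const_mul, h1, h1]
  push_cast
  field_simp
  ring

theorem concave_moment {T : ℝ → ℝ} {N : ℕ} (hN : N ≠ 0) {R : ℝ} (hR : 0 < R)
    (hanti : AntitoneOn T (Ici 0)) (hnn : ∀ u, 0 ≤ T u) (hzero : ∀ u, R < u → T u = 0)
    (h0 : 0 < T 0)
    (hconc : ∀ u w, 0 ≤ u → u ≤ w → 0 < w → 0 < T w →
      ((1 - u / w) * T 0 ^ ((N : ℝ)⁻¹) + u / w * T w ^ ((N : ℝ)⁻¹)) ^ N ≤ T u)
    (hI : 0 < ∫ u in (0 : ℝ)..R, T u) :
    T 0 * (∫ u in (0 : ℝ)..R, u * T u) ≤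
      ((N : ℝ) + 1) / ((N : ℝ) + 2) * (∫ u in (0 : ℝ)..R, T u) ^ 2 := by
  have hint0 : ∀ a b, 0 ≤ a → 0 ≤ b → IntervalIntegrable T volume a b := fun a b ha hb =>
    (hanti.mono (fun x hx => by
      rcases mem_uIcc.1 hx with ⟨h, -⟩ | ⟨h, -⟩ <;> exact le_trans (by assumption) h)).intervalIntegrable
  set I := ∫ u in (0 : ℝ)..R, T u with hIdef
  set c1 := ((N : ℝ) + 1) * I / T 0 with hc1
  have hc1p : 0 < c1 := div_pos (mul_pos (by positivity) hI) h0
  set R2 := max R c1 with hR2
  have hR2R : R ≤ R2 := le_max_left _ _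
  have hR2c : c1 ≤ R2 := le_max_right _ _
  have hR2p : 0 ≤ R2 := hR.le.trans hR2R
  set r0 := T 0 ^ ((N : ℝ)⁻¹) with hr0
  have hr0p : 0 < r0 := Real.rpow_pos_of_pos h0 _
  have hr0N : r0 ^ N = T 0 := Real.rpow_inv_natCast_pow h0.le hN
  set L := fun u : ℝ => if u ≤ c1 then T 0 * (1 - u / c1) ^ N else 0 with hL
  have hLnn : ∀ u, 0 ≤ L u := fun u => by
    simp only [hL]; split_ifs with h
    · exact mul_nonneg h0.le (pow_nonneg (sub_nonneg.2 ((div_le_one hc1p).2 h)) _)
    · exact le_rfl
  have hroot : ∀ u, u ≤ c1 → L u = ((1 - u / c1) * r0) ^ N := fun u hu => by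
    simp only [hL, if_pos hu, mul_pow, hr0N, mul_comm]
  have hLi : IntervalIntegrable L volume 0 R2 ∧
      (∫ u in (0 : ℝ)..R2, L u) = I ∧ IntervalIntegrable (fun u => u * L u) volume 0 R2 ∧
      (∫ u in (0 : ℝ)..R2, u * L u) = c1 * I / ((N : ℝ) + 2) := by
    obtain ⟨j1, j2⟩ := ramp_integrals hc1p N
    have ea : EqOn L (fun u => T 0 * (1 - u / c1) ^ N) (uIoc 0 c1) := fun u hu => by
      rw [uIoc_of_le hc1p.le] at hu
      simp only [hL, if_pos hu.2]
    have eb : EqOn L (fun _ => (0 : ℝ)) (uIoc c1 R2) := fun u hu => by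
      rw [uIoc_of_le hR2c] at hu
      simp only [hL, if_neg (not_le.2 hu.1)]
    have i1 : IntervalIntegrable L volume 0 c1 :=
      ((by fun_prop : Continuous fun u : ℝ => T 0 * (1 - u / c1) ^ N).intervalIntegrable _ _).congr
        ea.symm
    have i2 : IntervalIntegrable L volume c1 R2 := intervalIntegrable_const.congr eb.symm
    have k1 : IntervalIntegrable (fun u => u * L u) volume 0 c1 :=
      ((by fun_prop : Continuous fun u : ℝ =>
        T 0 * (u * (1 - u / c1) ^ N)).intervalIntegrable _ _).congr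
          fun u hu => by simp only [ea hu]; ring
    have k2 : IntervalIntegrable (fun u => u * L u) volume c1 R2 :=
      (intervalIntegrable_const (c := (0 : ℝ))).congr fun u hu => by simp [eb hu]
    refine ⟨i1.trans i2, ?_, k1.trans k2, ?_⟩
    · rw [← intervalIntegral.integral_add_adjacent_intervals i1 i2,
        intervalIntegral.integral_congr_ae (Filter.Eventually.of_forall fun u hu => ea hu),
        intervalIntegral.integral_congr_ae (Filter.Eventually.of_forall fun u hu => eb hu),
        intervalIntegral.integral_const_mul, j1, intervalIntegral.integral_zero, hc1]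
      field_simp
      ring
    · rw [← intervalIntegral.integral_add_adjacent_intervals k1 k2,
        intervalIntegral.integral_congr_ae (f := fun u => u * L u) (b := c1)
          (g := fun u => T 0 * (u * (1 - u / c1) ^ N))
          (Filter.Eventually.of_forall fun u hu => by rw [ea hu]; ring),
        intervalIntegral.integral_congr_ae (f := fun u => u * L u) (g := fun _ => (0 : ℝ))
          (Filter.Eventually.of_forall fun u hu => by rw [eb hu]; ring),
        intervalIntegral.integral_const_mul, j2, intervalIntegral.integral_zero, hc1]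
      field_simp
      ring
  obtain ⟨hLint, hLI, huLint, huLI⟩ := hLi
  have hTint : IntervalIntegrable T volume 0 R2 := hint0 _ _ le_rfl hR2p
  have huTint : IntervalIntegrable (fun u => u * T u) volume 0 R2 :=
    hTint.continuousOn_mul continuous_id.continuousOn
  have hext : ∀ f : ℝ → ℝ, IntervalIntegrable f volume 0 R2 →
      (∀ u, R < u → f u = 0) → ∫ u in (0 : ℝ)..R2, f u = ∫ u in (0 : ℝ)..R, f u := by
    intro f hf hz
    have hsub : uIcc 0 R ⊆ uIcc 0 R2 ∧ uIcc R R2 ⊆ uIcc 0 R2 := by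
      rw [uIcc_of_le hR.le, uIcc_of_le hR2R, uIcc_of_le hR2p]
      exact ⟨Icc_subset_Icc_right hR2R, Icc_subset_Icc_left hR.le⟩
    rw [← intervalIntegral.integral_add_adjacent_intervals (hf.mono_set hsub.1) (hf.mono_set hsub.2),
      intervalIntegral.integral_congr_ae (a := R) (g := fun _ => (0 : ℝ))
        (Filter.Eventually.of_forall fun u hu => hz u (uIoc_of_le hR2R ▸ hu).1)]
    simp
  have hTI : ∫ u in (0 : ℝ)..R2, T u = I := hext T hTint hzero
  have huTI : ∫ u in (0 : ℝ)..R2, u * T u = ∫ u in (0 : ℝ)..R, u * T u :=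
    hext _ huTint fun u hu => by rw [hzero u hu, mul_zero]
  have hgpow : ∀ u, (T u ^ ((N : ℝ)⁻¹)) ^ N = T u := fun u => Real.rpow_inv_natCast_pow (hnn u) hN
  have hinterp : ∀ u w, 0 ≤ u → u ≤ w → 0 < w → w ≤ c1 → 0 < T w → L w ≤ T w → L u ≤ T u := by
    intro u w hu huw hw hwc hTw hLw
    refine le_trans ?_ (hconc u w hu huw hw hTw)
    rw [hroot u (huw.trans hwc)]
    have hs : 0 ≤ u / w := div_nonneg hu hw.le
    have hlw : (1 - w / c1) * r0 ≤ T w ^ ((N : ℝ)⁻¹) := by
      rw [← pow_le_pow_iff_left₀ (mul_nonneg (sub_nonneg.2 ((div_le_one hc1p).2 hwc)) hr0p.le)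
        (Real.rpow_nonneg (hnn w) _) hN, hgpow, ← hroot w hwc]
      exact hLw
    refine pow_le_pow_left₀
      (mul_nonneg (sub_nonneg.2 ((div_le_one hc1p).2 (huw.trans hwc))) hr0p.le) ?_ N
    have e : (1 - u / c1) * r0 = (1 - u / w) * r0 + u / w * ((1 - w / c1) * r0) := by
      field_simp; ring
    rw [e]
    linarith [mul_le_mul_of_nonneg_left hlw hs]
  have hbeyond : ∀ u, c1 < u → T u = 0 := by
    intro u hu
    by_contra hne
    have hpos : 0 < T u := lt_of_le_of_ne (hnn u) (Ne.symm hne)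
    have huR : u ≤ R2 := by
      by_contra hlt
      exact hne (hzero u (lt_of_le_of_lt hR2R (not_le.1 hlt)))
    have hge : ∀ x ∈ Icc (0 : ℝ) R2, L x + (Ioc c1 u).indicator (fun _ => T u) x ≤ T x := by
      intro x hx
      by_cases hxc : x ≤ c1
      · rw [indicator_of_notMem (fun hh => absurd hh.1 (not_lt.2 hxc)), add_zero]
        have hu0 : 0 < u := hc1p.trans hu
        refine le_trans ?_ (hconc x u hx.1 (hxc.trans hu.le) hu0 hpos)
        rw [hroot x hxc]
        refine pow_le_pow_left₀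
          (mul_nonneg (sub_nonneg.2 ((div_le_one hc1p).2 hxc)) hr0p.le) ?_ N
        have h1 : 1 - x / c1 ≤ 1 - x / u :=
          sub_le_sub_left (div_le_div_of_nonneg_left hx.1 hc1p hu.le) _
        have h2 : 0 ≤ x / u * T u ^ ((N : ℝ)⁻¹) :=
          mul_nonneg (div_nonneg hx.1 hu0.le) (Real.rpow_nonneg hpos.le _)
        linarith [mul_le_mul_of_nonneg_right h1 hr0p.le]
      · have hL0 : L x = 0 := by simp only [hL, if_neg hxc]
        rw [hL0, zero_add]
        by_cases hxu : x ∈ Ioc c1 u
        · rw [indicator_of_mem hxu]; exact hanti hx.1 (hc1p.le.trans hu.le) hxu.2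
        · rw [indicator_of_notMem hxu]; exact hnn x
    have hii : IntervalIntegrable ((Ioc c1 u).indicator fun _ => T u) volume 0 R2 := by
      rw [intervalIntegrable_iff_integrableOn_Ioc_of_le hR2p]
      exact (integrable_const (T u)).indicator measurableSet_Ioc
    have := intervalIntegral.integral_mono_on hR2p (hLint.add hii) hTint hge
    rw [intervalIntegral.integral_add hLint hii, hLI, hTI, intervalIntegral.integral_of_le hR2p,
      setIntegral_indicator measurableSet_Ioc,
      inter_eq_self_of_subset_right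
        (show Ioc c1 u ⊆ Ioc 0 R2 from fun z hz => ⟨hc1p.trans hz.1, hz.2.trans huR⟩),
      setIntegral_const, smul_eq_mul, Measure.real, Real.volume_Ioc,
      ENNReal.toReal_ofReal (by linarith)] at this
    nlinarith [mul_pos (sub_pos.2 hu) hpos]
  set A := {u : ℝ | 0 ≤ u ∧ u < c1 ∧ L u < T u} ∪ {0} with hA
  have hAne : A.Nonempty := ⟨0, Or.inr rfl⟩
  have hAbd : BddAbove A := ⟨c1, by
    rintro u (hu | hu)
    · exact hu.2.1.le
    · rw [mem_singleton_iff.1 hu]; exact hc1p.le⟩
  set c := sSup A with hc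
  have hcc : c ≤ c1 := csSup_le hAne (by
    rintro u (hu | hu)
    · exact hu.2.1.le
    · rw [mem_singleton_iff.1 hu]; exact hc1p.le)
  have hsign : ∀ u ∈ Icc (0 : ℝ) R2, u ≠ c1 → (u - c) * (T u - L u) ≤ 0 := by
    intro u hu hne
    rcases lt_trichotomy u c with hlt | rfl | hgt
    · obtain ⟨w, hw, huw⟩ := exists_lt_of_lt_csSup hAne hlt
      rcases hw with ⟨hw0, hwc, hLw⟩ | hw
      · exact mul_nonpos_of_nonpos_of_nonneg (by linarith) (sub_nonneg.2
          (hinterp u w hu.1 huw.le (lt_of_le_of_lt hu.1 huw) hwc.le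
            (lt_of_le_of_lt (hLnn w) hLw) hLw.le))
      · rw [mem_singleton_iff.1 hw] at huw; linarith [hu.1]
    · simp
    · refine mul_nonpos_of_nonneg_of_nonpos (by linarith) (sub_nonpos.2 ?_)
      rcases lt_or_gt_of_ne hne with hlt | hgt'
      · by_contra hLT
        exact absurd (le_csSup hAbd (Or.inl ⟨hu.1, hlt, not_le.1 hLT⟩)) (not_le.2 hgt)
      · rw [hbeyond u hgt']; exact hLnn u
  have hae : ∀ᵐ u ∂(volume.restrict (Ioc (0 : ℝ) R2)), (u - c) * (T u - L u) ≤ 0 := by
    filter_upwards [ae_restrict_mem measurableSet_Ioc,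
      ae_restrict_of_ae (Measure.ae_ne volume c1)] with u hu hne
    exact hsign u ⟨hu.1.le, hu.2⟩ hne
  have hle : ∫ u in (0 : ℝ)..R2, (u - c) * (T u - L u) ≤ 0 := by
    rw [intervalIntegral.integral_of_le hR2p]
    exact integral_nonpos_of_ae hae
  have hexp : (fun u => (u - c) * (T u - L u)) =
      fun u => (u * T u - c * T u) - (u * L u - c * L u) := by funext u; ring
  rw [hexp, intervalIntegral.integral_sub (huTint.sub (hTint.const_mul c))
      (huLint.sub (hLint.const_mul c)), intervalIntegral.integral_sub huTint (hTint.const_mul c),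
    intervalIntegral.integral_sub huLint (hLint.const_mul c), intervalIntegral.integral_const_mul,
    intervalIntegral.integral_const_mul, hTI, hLI, huTI, huLI] at hle
  calc T 0 * (∫ u in (0 : ℝ)..R, u * T u) ≤ T 0 * (c1 * I / ((N : ℝ) + 2)) :=
        mul_le_mul_of_nonneg_left (by linarith) h0.le
    _ = _ := by rw [hc1]; field_simp

end Vale.Agent.P254s
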