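import Vale.Agent.P254s.Slices

/-!
# P254: the shifted orthant parts of a symmetric body and their derivatives
-/

namespace Vale.Agent.P254s

open MeasureTheory Set Filter Topology
open Vale.Agent.P254 (SymBody)
open Vale.Agent.P074.BM (sect isCompact_sect)

variable {n : ℕ}

/-- The volume of the part of `K` in the shifted orthant. -/
noncomputable def volA (K : Set (Fin (n + 1) → ℝ)) (s : ℝ) : ℝ := volume.real (K ∩ quad (n + 1) s)

/-- The first moment of the part of `K` in the shifted orthant. -/
noncomputable def momB (K : Set (Fin (n + 1) → ℝ)) (s : ℝ) : ℝ :=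
  ∫ x in K ∩ quad (n + 1) s, (x 0 - s)

/-- The volume of a layer. -/
noncomputable def volF (K : Set (Fin (n + 1) → ℝ)) (t : ℝ) : ℝ := volume.real (layer K t)

/-- The summed first moments of a layer. -/
noncomputable def momD (K : Set (Fin (n + 1) → ℝ)) (t : ℝ) : ℝ :=
  ∫ z in layer K t, ∑ i, (z i - t)

theorem shift_quad (K : Set (Fin n → ℝ)) (s : ℝ) :
    (fun x : Fin n → ℝ => x + fun _ => s) ⁻¹' (K ∩ quad n s) = shrink K s ∩ quad n 0 := by
  ext x
  simp only [shrink, quad, mem_preimage, mem_inter_iff, mem_ofPred_eq, Pi.add_apply,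
    le_add_iff_nonneg_left]
  constructor
  · rintro ⟨h1, h2⟩
    refine ⟨?_, h2⟩
    simp only [abs_of_nonneg (h2 _)]
    exact h1
  · rintro ⟨h1, h2⟩
    refine ⟨?_, h2⟩
    simp only [abs_of_nonneg (h2 _)] at h1
    exact h1

theorem shift_integral (K : Set (Fin n → ℝ)) (s : ℝ) (g : (Fin n → ℝ) → ℝ) :
    ∫ x in shrink K s ∩ quad n 0, g x = ∫ x in K ∩ quad n s, g (x - fun _ => s) := by
  have := (measurePreserving_add_right (volume : Measure (Fin n → ℝ))
    (fun _ => s)).setIntegral_preimage_emb (MeasurableEquiv.addRight (fun _ : Fin n => s)).measurableEmbedding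
    (fun x => g (x - fun _ => s)) (K ∩ quad n s)
  simp only [shift_quad, add_sub_cancel_right] at this
  exact this

theorem fold_abs {S : Set (Fin n → ℝ)} (h : SymBody S) (i : Fin n) :
    ∫ x in S, |x i| = (2 : ℝ) ^ n * ∫ x in S ∩ quad n 0, x i := by
  rw [fold h (g := fun x => |x i|) (by fun_prop) fun b x => by
    simp [Vale.Agent.P254.act, abs_mul, Vale.Agent.P254.abs_sgn]]
  congr 1
  exact setIntegral_congr_fun (h.compact.measurableSet.inter (quad_meas 0))
    fun x hx => abs_of_nonneg (hx.2 i)

theorem fold_vol {S : Set (Fin n → ℝ)} (h : SymBody S) :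
    volume.real S = (2 : ℝ) ^ n * volume.real (S ∩ quad n 0) := by
  have := fold h (g := fun _ => (1 : ℝ)) continuous_const fun _ _ => rfl
  simpa using this

theorem shrink_vol {K : Set (Fin (n + 1) → ℝ)} (h : SymBody K) {s : ℝ} (hs : 0 ≤ s)
    (hin : (fun _ => s) ∈ interior K) :
    volume.real (shrink K s) = (2 : ℝ) ^ (n + 1) * volA K s ∧
      (∫ x in shrink K s, |x 0|) = (2 : ℝ) ^ (n + 1) * momB K s := by
  have hS := symBody_shrink h hs hin
  refine ⟨?_, ?_⟩
  · rw [fold_vol hS, volA]
    congr 1
    have := shift_integral K s fun _ => (1 : ℝ)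
    simpa using this
  · rw [fold_abs hS 0, momB, shift_integral]
    rfl

theorem sect_shrink (K : Set (Fin (n + 1) → ℝ)) (s : ℝ) :
    sect (shrink K s) 0 = shrink (sect K s) s := by
  ext z
  simp only [sect, shrink, mem_ofPred_eq]
  constructor <;> intro hz
  · convert hz using 1
    funext j
    refine Fin.cases ?_ (fun k => ?_) j <;> simp
  · convert hz using 1
    funext j
    refine Fin.cases ?_ (fun k => ?_) j <;> simp

theorem layer_shrink {K : Set (Fin (n + 1) → ℝ)} (h : SymBody K) {s : ℝ} (hs : 0 ≤ s)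
    (hin : (fun _ => s) ∈ interior K) :
    slice (shrink K s) 0 = (2 : ℝ) ^ n * volF K s ∧
      ∑ i, (∫ z in sect (shrink K s) 0, |z i|) = (2 : ℝ) ^ n * momD K s := by
  have hT := symBody_sect (symBody_shrink h hs hin)
  refine ⟨?_, ?_⟩
  · rw [slice, fold_vol hT, volF, sect_shrink]
    congr 1
    have := shift_integral (sect K s) s fun _ => (1 : ℝ)
    simpa [layer] using this
  · simp only [fold_abs hT]
    rw [← Finset.mul_sum, momD, integral_finsetSum]
    · congr 1
      refine Finset.sum_congr rfl fun i _ => ?_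
      rw [sect_shrink, shift_integral]
      rfl
    · exact fun i _ => (by fun_prop : Continuous fun z : Fin n → ℝ => z i - s).continuousOn.integrableOn_compact
        ((isCompact_sect h.compact s).inter_right (quad_closed s))

theorem ae_ne_const (c : ℝ) : ∀ᵐ x : Fin n → ℝ, ∀ i, x i ≠ c := by
  refine ae_all_iff.2 fun i => ?_
  refine measure_eq_zero_iff_ae_notMem.1 ?_
  exact Measure.pi_hyperplane (fun _ : Fin n => (volume : Measure ℝ)) i c

theorem slice_interior {K : Set (Fin (n + 1) → ℝ)} (hK : Convex ℝ K) {t : ℝ}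
    (hin : (fun _ => t) ∈ interior K) {z : Fin n → ℝ} (hz : z ∈ interior (sect K t)) :
    (Fin.cons t z : Fin (n + 1) → ℝ) ∈ interior K := by
  have hc : ContinuousAt (fun e : ℝ => z + e • (z - fun _ => t)) 0 := by fun_prop
  have hmem : ∀ᶠ e in 𝓝 (0 : ℝ), z + e • (z - fun _ => t) ∈ sect K t :=
    hc.preimage_mem_nhds (by simpa using mem_interior_iff_mem_nhds.1 hz)
  obtain ⟨ε, hε, hball⟩ := Metric.eventually_nhds_iff.1 hmem
  set e := ε / 2 with he
  have he0 : 0 < e := by positivity
  have hz' := hball (y := e) (by rw [Real.dist_eq, sub_zero, abs_of_pos he0]; linarith)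
  have := hK.combo_interior_self_mem_interior hin hz' (a := e / (1 + e)) (b := 1 / (1 + e))
    (by positivity) (by positivity) (by field_simp; ring)
  convert this using 1
  funext j
  refine Fin.cases ?_ (fun k => ?_) j
  · simp; field_simp; ring
  · simp; field_simp; ring

theorem layer_continuousAt {K : Set (Fin (n + 1) → ℝ)} (h : SymBody K) {t : ℝ}
    (hin : (fun _ => t) ∈ interior K) {g : (Fin (n + 1) → ℝ) → ℝ} (hg : Continuous g) :
    ContinuousAt (fun u => ∫ z in layer K u, g (Fin.cons u z)) t := by
  obtain ⟨R, hR, hsub⟩ := h.compact.isBounded.subset_closedBall_lt 0 0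
  obtain ⟨C, hC⟩ := h.compact.exists_bound_of_continuousOn hg.continuousOn
  have hml : ∀ u, MeasurableSet (layer K u) := fun u =>
    (isCompact_sect h.compact u).measurableSet.inter (quad_meas u)
  have hcons : ∀ z : Fin n → ℝ, Continuous fun u : ℝ => (Fin.cons u z : Fin (n + 1) → ℝ) :=
    fun z => by fun_prop
  have hcz : ∀ u : ℝ, Continuous fun z : Fin n → ℝ => (Fin.cons u z : Fin (n + 1) → ℝ) :=
    fun u => continuous_const.finCons continuous_id
  simp only [← integral_indicator (hml _)]
  refine continuousAt_of_dominated (bound := (Metric.closedBall (0 : Fin n → ℝ) R).indicator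
    fun _ => max C 0) ?_ ?_ ?_ ?_
  · exact Eventually.of_forall fun u => ((hg.comp (hcz u)).aestronglyMeasurable.indicator (hml u))
  · refine Eventually.of_forall fun u => Eventually.of_forall fun z => ?_
    by_cases hz : z ∈ layer K u
    · have hzK : (Fin.cons u z : Fin (n + 1) → ℝ) ∈ K := hz.1
      have hzb : z ∈ Metric.closedBall (0 : Fin n → ℝ) R := by
        have h1 := mem_closedBall_zero_iff.1 (hsub hzK)
        refine mem_closedBall_zero_iff.2 ((pi_norm_le_iff_of_nonneg hR.le).2 fun i => ?_)
        simpa using (norm_le_pi_norm (Fin.cons u z : Fin (n + 1) → ℝ) i.succ).trans h1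
      rw [indicator_of_mem hz, indicator_of_mem hzb]
      exact (hC _ hzK).trans (le_max_left _ _)
    · rw [indicator_of_notMem hz, norm_zero]
      exact indicator_nonneg (fun _ _ => le_max_right _ _) _
  · exact (integrable_indicator_iff Metric.isClosed_closedBall.measurableSet).2
      (integrableOn_const (isCompact_closedBall _ _).measure_lt_top.ne)
  · have hfr : ∀ᵐ z : Fin n → ℝ, z ∉ frontier (sect K t) := by
      refine measure_eq_zero_iff_ae_notMem.1 (Convex.addHaar_frontier volume ?_)
      intro x hx y hy a b ha hb hab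
      have := h.convex hx hy ha hb hab
      show (Fin.cons t (a • x + b • y) : Fin (n + 1) → ℝ) ∈ K
      convert this using 1
      funext j
      refine Fin.cases ?_ (fun k => ?_) j
      · simp [← add_mul, hab]
      · simp
    filter_upwards [hfr, ae_ne_const (n := n) t] with z hzf hzt
    have hclosed : IsClosed (sect K t) := (isCompact_sect h.compact t).isClosed
    by_cases hz : z ∈ layer K t
    · have hzi : z ∈ interior (sect K t) := by
        by_contra hni
        exact hzf ⟨subset_closure hz.1, hni⟩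
      have hev : ∀ᶠ u in 𝓝 t, z ∈ layer K u := by
        have h1 : ∀ᶠ u in 𝓝 t, (Fin.cons u z : Fin (n + 1) → ℝ) ∈ interior K :=
          (hcons z).continuousAt.preimage_mem_nhds
            (isOpen_interior.mem_nhds (slice_interior h.convex hin hzi))
        have h2 : ∀ᶠ u in 𝓝 t, ∀ i, u ≤ z i :=
          eventually_all.2 fun i => eventually_le_nhds (lt_of_le_of_ne (hz.2 i) (hzt i).symm)
        filter_upwards [h1, h2] with u a b
        exact ⟨interior_subset (s := K) a, b⟩
      refine ((hg.comp (hcons z)).continuousAt).congr ?_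
      filter_upwards [hev] with u hu
      rw [indicator_of_mem hu]
      rfl
    · have hev : ∀ᶠ u in 𝓝 t, z ∉ layer K u := by
        by_cases hzK : (Fin.cons t z : Fin (n + 1) → ℝ) ∈ K
        · have : ¬∀ i, t ≤ z i := fun hall => hz ⟨hzK, hall⟩
          obtain ⟨i, hi⟩ := not_forall.1 this
          filter_upwards [eventually_gt_nhds (not_le.1 hi)] with u hu hu'
          exact absurd (hu'.2 i) (not_le.2 hu)
        · filter_upwards [(hcons z).continuousAt.preimage_mem_nhds
            (h.compact.isClosed.isOpen_compl.mem_nhds hzK)] with u hu hu'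
          exact hu hu'.1
      refine (continuousAt_const (y := (0 : ℝ))).congr ?_
      filter_upwards [hev] with u hu
      rw [indicator_of_notMem hu]

theorem tail_hasDeriv {K : Set (Fin (n + 1) → ℝ)} (h : SymBody K) {g : (Fin (n + 1) → ℝ) → ℝ}
    (hg : Continuous g) (hi : ∀ (σ : Equiv.Perm (Fin (n + 1))) x, g (fun i => x (σ i)) = g x)
    {s : ℝ} (hs : 0 ≤ s) (hin : (fun _ => s) ∈ interior K) :
    HasDerivWithinAt (fun u => ∫ x in K ∩ quad (n + 1) u, g x)
      (-(((n : ℝ) + 1) * ∫ z in layer K s, g (Fin.cons s z))) (Ici 0) s := by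
  set W := fun u => ∫ z in layer K u, g (Fin.cons u z) with hW
  have hi0 := (layer_formula h hg hi 0).1
  have hU : IsOpen {u : ℝ | (fun _ : Fin (n + 1) => u) ∈ interior K} :=
    isOpen_interior.preimage (by fun_prop)
  have hcont : ContinuousOn W {u : ℝ | (fun _ : Fin (n + 1) => u) ∈ interior K} :=
    fun u hu => (layer_continuousAt h hu hg).continuousWithinAt
  have hint : IntervalIntegrable W volume 0 s := by
    rw [intervalIntegrable_iff_integrableOn_Ioc_of_le hs]
    exact hi0.mono_set (Ioc_subset_Ioi_self.trans Ioi_subset_Ici_self)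
  have hd := intervalIntegral.integral_hasDerivAt_right hint
    (hcont.stronglyMeasurableAtFilter hU s hin) (layer_continuousAt h hin hg)
  have hd2 := (hd.const_sub (∫ u in Ici (0 : ℝ), W u)).const_mul ((n : ℝ) + 1)
  refine ((hd2.congr_deriv (by rw [mul_neg])).hasDerivWithinAt).congr_of_mem ?_ hs
  intro u hu
  have hu' : (0 : ℝ) ≤ u := hu
  rw [(layer_formula h hg hi u).2]
  congr 1
  rw [integral_Ici_eq_integral_Ioi, integral_Ici_eq_integral_Ioi,
    intervalIntegral.integral_of_le hu']
  have hsp := setIntegral_union (μ := volume) (f := W) (s := Ioc 0 u) (t := Ioi u)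
    (disjoint_left.2 fun a ha hb => not_lt.2 ha.2 hb) measurableSet_Ioi
    (hi0.mono_set (Ioc_subset_Ioi_self.trans Ioi_subset_Ici_self))
    (hi0.mono_set (fun a ha => hu'.trans (le_of_lt ha)))
  rw [Ioc_union_Ioi_eq_Ioi hu'] at hsp
  simp only [hW] at hsp ⊢
  linarith

theorem volA_hasDeriv {K : Set (Fin (n + 1) → ℝ)} (h : SymBody K) {s : ℝ} (hs : 0 ≤ s)
    (hin : (fun _ => s) ∈ interior K) :
    HasDerivWithinAt (volA K) (-(((n : ℝ) + 1) * volF K s)) (Ici 0) s := by
  have := tail_hasDeriv h (g := fun _ => (1 : ℝ)) continuous_const (fun _ _ => rfl) hs hin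
  show HasDerivWithinAt (fun u => volume.real (K ∩ quad (n + 1) u)) _ _ _
  simpa [volF] using this

theorem momB_eq {K : Set (Fin (n + 1) → ℝ)} (h : SymBody K) (s : ℝ) :
    momB K s = (∫ x in K ∩ quad (n + 1) s, ∑ i, x i) / ((n : ℝ) + 1) - s * volA K s := by
  have hc : IsCompact (K ∩ quad (n + 1) s) := h.compact.inter_right (quad_closed s)
  have hi : ∀ i, IntegrableOn (fun x : Fin (n + 1) → ℝ => x i) (K ∩ quad (n + 1) s) volume :=
    fun i => (continuous_apply i).continuousOn.integrableOn_compact hc
  have hsym : ∀ i, ∫ x in K ∩ quad (n + 1) s, x i = ∫ x in K ∩ quad (n + 1) s, x 0 := by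
    intro i
    set p : Equiv.Perm (Fin (n + 1)) × (Fin (n + 1) → Bool) := (Equiv.swap 0 i, fun _ => true)
    have hT : ∀ x j, Vale.Agent.P254.act p x j = x (Equiv.swap 0 i j) := fun x j => by
      simp [Vale.Agent.P254.act, p, Vale.Agent.P254.sgn]
    have hpre : Vale.Agent.P254.act p ⁻¹' (K ∩ quad (n + 1) s) = K ∩ quad (n + 1) s := by
      rw [preimage_inter, h.act_preimage]
      congr 1
      ext x
      simp only [mem_preimage, quad, mem_ofPred_eq, hT]
      exact ⟨fun hh j => by simpa using hh (Equiv.swap 0 i j), fun hh j => hh _⟩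
    have := (Vale.Agent.P254.act_preserving p).setIntegral_preimage_emb
      (Vale.Agent.P254.act_embedding p) (fun x => x 0) (K ∩ quad (n + 1) s)
    rw [hpre] at this
    simpa [hT] using this
  rw [momB, integral_finsetSum _ fun i _ => hi i, integral_sub (hi 0)
    (continuous_const.continuousOn.integrableOn_compact hc), setIntegral_const, smul_eq_mul,
    Finset.sum_congr rfl fun i _ => hsym i, Finset.sum_const, Finset.card_univ, Fintype.card_fin,
    nsmul_eq_mul, volA]
  push_cast
  field_simp

theorem momB_hasDeriv {K : Set (Fin (n + 1) → ℝ)} (h : SymBody K) {s : ℝ} (hs : 0 ≤ s)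
    (hin : (fun _ => s) ∈ interior K) :
    HasDerivWithinAt (momB K) (-(volA K s + momD K s)) (Ici 0) s := by
  have h1 := tail_hasDeriv h (g := fun x => ∑ i, x i) (by fun_prop)
    (fun σ x => Equiv.sum_comp σ x) hs hin
  have h2 := (h1.div_const ((n : ℝ) + 1)).sub
    ((hasDerivWithinAt_id s (Ici 0)).mul (volA_hasDeriv h hs hin))
  have hval : ∫ z in layer K s, ∑ i, (Fin.cons s z : Fin (n + 1) → ℝ) i =
      momD K s + ((n : ℝ) + 1) * s * volF K s := by
    have hc : IsCompact (layer K s) := (isCompact_sect h.compact s).inter_right (quad_closed s)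
    have e : (fun z : Fin n → ℝ => ∑ i, (Fin.cons s z : Fin (n + 1) → ℝ) i) =
        fun z => (∑ i, (z i - s)) + ((n : ℝ) + 1) * s := by
      funext z
      simp [Fin.sum_univ_succ, Finset.sum_sub_distrib]
      ring
    rw [e, integral_add
      ((by fun_prop : Continuous fun z : Fin n → ℝ => ∑ i, (z i - s)).continuousOn.integrableOn_compact hc)
      (continuous_const.continuousOn.integrableOn_compact hc), setIntegral_const, smul_eq_mul,
      momD, volF]
    ring
  refine (h2.congr_of_mem (fun u _ => momB_eq h u) hs).congr_deriv ?_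
  rw [hval]
  field_simp
  simp
  ring

end Vale.Agent.P254s
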