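import Vale.Agent.P254s.Deriv
import Vale.Agent.P254s.Algebra
import Vale.Agent.P254.Main

/-!
# P254: symmetric bodies have isotropic constant below the simplex in every dimension
-/

namespace Vale.Agent.P254s

open MeasureTheory Set Filter Topology
open Vale.Agent.P254 (SymBody meanAbs meanSqCoord covMat isoConst simplex)
open Vale.Agent.P074.BM (sect)


theorem base_case {K : Set (Fin 1 → ℝ)} (h : SymBody K) :
    4 * (∫ x in K, |x 0|) ≤ volume.real K ^ 2 := by
  obtain ⟨x0, hx0, hmax⟩ := h.compact.exists_isMaxOn (h.interior_ne.mono interior_subset)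
    (f := fun x : Fin 1 → ℝ => |x 0|) (by fun_prop)
  set a := |x0 0| with ha
  have hmem : ∀ u : ℝ, |u| ≤ a → slice K u = 1 := fun u hu => by
    have hs : sect K u = univ := eq_univ_of_forall fun z => by
      refine h.mem_of_abs_le hx0 fun i => ?_
      fin_cases i
      simpa using hu
    rw [slice, hs]
    simp [measureReal_def, volume_pi]
  have hz : ∀ u, a < |u| → slice K u = 0 := fun u hu => by
    have hs : sect K u = ∅ := eq_empty_of_forall_notMem fun z hz => by
      have := hmax hz
      simp only [mem_ofPred_eq, Fin.cons_zero] at this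
      linarith
    simp [slice, hs]
  have ha0 : 0 < a := by
    rcases (abs_nonneg (x0 0)).eq_or_lt with he | he
    · exfalso
      obtain ⟨R, hR, hzR⟩ := slice_zero h.compact
      have hv := vol_eq h hR hzR
      have : volume K = 0 := by
        refine measure_mono_null (fun x hx => ?_) (Measure.pi_hyperplane (fun _ : Fin 1 => (volume : Measure ℝ)) 0 0)
        have := hmax hx
        simp only [mem_ofPred_eq, ← he] at this ⊢
        exact abs_eq_zero.1 (le_antisymm this (abs_nonneg _))
      have := h.vol_pos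
      rw [measureReal_def, ‹volume K = 0›, ENNReal.toReal_zero] at this
      exact lt_irrefl _ this
    · exact he
  have hV := vol_eq h ha0 hz
  have hM := integral_abs_coord h (φ := fun u => u) continuous_id ha0 hz
  have e1 : ∀ φ : ℝ → ℝ, (∫ u in (0 : ℝ)..a, slice K u * φ u) = ∫ u in (0 : ℝ)..a, φ u := fun φ =>
    intervalIntegral.integral_congr fun u hu => by
      rw [uIcc_of_le ha0.le] at hu
      simp only [hmem u (by rw [abs_of_nonneg hu.1]; exact hu.2), one_mul]
  have e2 : (∫ u in (0 : ℝ)..a, slice K u) = a := by simpa using e1 fun _ => (1 : ℝ)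
  rw [hV, hM, e1 fun u => u, e2, integral_id]
  nlinarith

theorem inductive_step (m : ℕ)
    (IH : ∀ T : Set (Fin (m + 1) → ℝ), SymBody T →
      (4 * ∫ x in T, |x 0|) ^ (m + 1) ≤ volume.real T ^ (m + 2))
    {K : Set (Fin (m + 2) → ℝ)} (h : SymBody K) :
    (4 * ∫ x in K, |x 0|) ^ (m + 2) ≤ volume.real K ^ (m + 3) := by
  by_contra hlt
  push Not at hlt
  set U := {t : ℝ | (fun _ : Fin (m + 2) => t) ∈ interior K} with hU
  have h0U : (0 : ℝ) ∈ U := zero_interior h
  obtain ⟨R, hR, hsub⟩ := h.compact.isBounded.subset_closedBall_lt 0 0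
  have hUb : BddAbove U := ⟨R, fun t ht => by
    have := (norm_le_pi_norm (fun _ : Fin (m + 2) => t) 0).trans
      (mem_closedBall_zero_iff.1 (hsub (interior_subset ht)))
    exact (le_abs_self t).trans this⟩
  set S := sSup U with hS
  have hUopen : IsOpen U := isOpen_interior.preimage (by fun_prop)
  have hin : ∀ t, 0 ≤ t → t < S → t ∈ U := by
    intro t ht htS
    obtain ⟨u, hu, htu⟩ := exists_lt_of_lt_csSup ⟨0, h0U⟩ htS
    have hu0 : 0 < u := ht.trans_lt htu
    have := h.convex.interior h0U hu (a := 1 - t / u) (b := t / u)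
      (by rw [sub_nonneg, div_le_one hu0]; exact htu.le) (by positivity) (by ring)
    show (fun _ : Fin (m + 2) => t) ∈ interior K
    convert this using 1
    funext i
    simp [div_mul_cancel₀ _ hu0.ne']
  have hS0 : 0 < S := by
    obtain ⟨e, he, hball⟩ := Metric.isOpen_iff.1 hUopen 0 h0U
    exact lt_of_lt_of_le (half_pos he) (le_csSup hUb (hball (by
      rw [Metric.mem_ball, Real.dist_eq, sub_zero, abs_of_pos (half_pos he)]; linarith)))
  have facts : ∀ t, 0 ≤ t → t < S → 0 < volA K t ∧ 0 < momB K t ∧ 0 < volF K t ∧ 0 ≤ momD K t ∧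
      volA K t ^ 2 ≤ 2 * momB K t * volF K t ∧ momB K t * volF K t ≤ volA K t ^ 2 ∧
      2 ^ (m + 1) * (momD K t / ((m : ℝ) + 1)) ^ (m + 1) ≤ volF K t ^ (m + 2) ∧
      2 ^ (m + 2) * momB K t ^ (m + 2) ≤ ((m : ℝ) + 3) * volA K t ^ (m + 3) := by
    intro t ht htS
    have hi := hin t ht htS
    have hSb := symBody_shrink h ht hi
    have hTb := symBody_sect hSb
    obtain ⟨eV, eM⟩ := shrink_vol h ht hi
    obtain ⟨eF, eD⟩ := layer_shrink h ht hi
    obtain ⟨b1, b2⟩ := slice_bounds hSb
    have hV := hSb.vol_pos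
    have hT := hTb.vol_pos
    have hlow := hSb.vol_lower
    rw [meanAbs] at hlow
    have hIH := IH _ hTb
    have hsum : ∑ i, (∫ z in sect (shrink K t) 0, |z i|) =
        ((m : ℝ) + 1) * ∫ z in sect (shrink K t) 0, |z 0| := by
      simp [fun i => hTb.abs_integral i]
    rw [eD] at hsum
    have hz0 : (∫ z in sect (shrink K t) 0, |z 0|) =
        (2 : ℝ) ^ (m + 1) * (momD K t / ((m : ℝ) + 1)) := by
      rw [← mul_div_assoc, eq_div_iff (by positivity), mul_comm]; exact hsum.symm
    change slice (shrink K t) 0 = _ at eF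
    have hTv : volume.real (sect (shrink K t) 0) = (2 : ℝ) ^ (m + 1) * volF K t := eF
    rw [eF, eV, eM] at b1 b2
    rw [eV, eM] at hlow
    rw [eV] at hV
    rw [hTv] at hT
    rw [hTv, hz0] at hIH
    have hA : 0 < volA K t := pos_of_mul_pos_right hV (by positivity)
    have hF : 0 < volF K t := pos_of_mul_pos_right hT (by positivity)
    have hp : (2 : ℝ) ^ (m + 1 + 1) = 2 * 2 ^ (m + 1) := by ring
    have hq : (0 : ℝ) < 2 ^ (m + 1) * 2 ^ (m + 1) := by positivity
    have c1 : volA K t ^ 2 ≤ 2 * momB K t * volF K t :=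
      le_of_mul_le_mul_left (by rw [hp] at b1; linarith) hq
    have c2 : momB K t * volF K t ≤ volA K t ^ 2 :=
      le_of_mul_le_mul_left (by rw [hp] at b2; linarith) hq
    have hB : 0 < momB K t := by
      by_contra hn
      nlinarith [mul_nonpos_of_nonpos_of_nonneg (not_lt.1 hn) hF.le, pow_pos hA 2]
    have hD : 0 ≤ momD K t := setIntegral_nonneg
      ((Vale.Agent.P074.BM.isCompact_sect h.compact t).measurableSet.inter (quad_meas t))
      fun z hz => Finset.sum_nonneg fun i _ => sub_nonneg.2 (hz.2 i)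
    refine ⟨hA, hB, hF, hD, c1, c2, ?_, ?_⟩
    · refine le_of_mul_le_mul_left ?_
        (show (0 : ℝ) < 2 ^ (m + 1) * (2 ^ (m + 1)) ^ (m + 1) by positivity)
      calc (2 : ℝ) ^ (m + 1) * (2 ^ (m + 1)) ^ (m + 1) *
            (2 ^ (m + 1) * (momD K t / ((m : ℝ) + 1)) ^ (m + 1))
          = (4 * (2 ^ (m + 1) * (momD K t / ((m : ℝ) + 1)))) ^ (m + 1) := by
            rw [show (4 : ℝ) = 2 * 2 by norm_num]; simp only [mul_pow]; ring
        _ ≤ _ := hIH
        _ = _ := by rw [mul_pow, pow_succ _ (m + 1)]; ring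
    · have e : ∀ k : ℝ, k ^ (m + 1 + 1) / k * (4 * ((2 : ℝ) ^ (m + 1 + 1) * momB K t /
          (2 ^ (m + 1 + 1) * volA K t)) / k) ^ (m + 1 + 1) =
          4 ^ (m + 2) * momB K t ^ (m + 2) / (k * volA K t ^ (m + 2)) ∨ k = 0 := fun k => by
        rcases eq_or_ne k 0 with hk | hk
        · exact Or.inr hk
        · left
          rw [mul_div_mul_left _ _ (by positivity : (2 : ℝ) ^ (m + 1 + 1) ≠ 0)]
          simp only [div_pow, mul_pow, show m + 1 + 1 = m + 2 by ring]
          field_simp
      push_cast at hlow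
      have e3 : (m : ℝ) + 1 + 2 = (m : ℝ) + 3 := by ring
      rw [e3, (e ((m : ℝ) + 3)).resolve_right (by positivity), div_le_iff₀ (by positivity),
        show (4 : ℝ) = 2 * 2 by norm_num, mul_pow] at hlow
      refine le_of_mul_le_mul_left ?_ (show (0 : ℝ) < 2 ^ (m + 2) by positivity)
      calc (2 : ℝ) ^ (m + 2) * (2 ^ (m + 2) * momB K t ^ (m + 2))
          = 2 ^ (m + 2) * 2 ^ (m + 2) * momB K t ^ (m + 2) := by ring
        _ ≤ _ := hlow
        _ = _ := by ring
  obtain ⟨a0, b0, -, -, -, -, -, -⟩ := facts 0 le_rfl hS0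
  have hM0 : ∫ x in K, |x 0| = (2 : ℝ) ^ (m + 2) * momB K 0 := by
    rw [fold_abs h 0]; simp [momB]
  have hV0 : volume.real K = (2 : ℝ) ^ (m + 2) * volA K 0 := fold_vol h
  set c := volA K 0 ^ (m + 3) / (2 ^ (m + 2) * momB K 0 ^ (m + 2)) with hc
  have hc0 : 0 < c := by positivity
  have hc1 : c < 1 := by
    rw [hc, div_lt_one (by positivity)]
    rw [hM0, hV0, mul_pow, mul_pow, mul_pow, pow_succ _ (m + 2),
      show (4 : ℝ) = 2 * 2 by norm_num, mul_pow] at hlt
    refine lt_of_mul_lt_mul_left ?_ (show (0 : ℝ) ≤ 2 ^ (m + 2) * (2 ^ (m + 2)) ^ (m + 2) by positivity)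
    rw [mul_comm ((2 : ℝ) ^ (m + 2)) ((2 ^ (m + 2)) ^ (m + 2))]
    linarith
  set δ := (1 - c) / 2 with hδ
  have hδ0 : 0 < δ := by rw [hδ]; linarith
  set G := fun t => ((m : ℝ) + 3) * Real.log (volA K t) - ((m : ℝ) + 2) * Real.log (momB K t) with hG
  set ψ := fun t => G t - δ * Real.log (volA K t) with hψ
  have hanti : ∀ t, 0 ≤ t → volA K t ≤ volA K 0 := fun t ht =>
    ENNReal.toReal_mono (h.compact.inter_right (quad_closed 0)).measure_lt_top.ne
      (measure_mono (inter_subset_inter_right _ fun x hx i => ht.trans (hx i)))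
  have main : ∀ s1, 0 ≤ s1 → s1 < S → ψ s1 ≤ ψ 0 := by
    intro s1 hs1 hs1S
    have hd : ∀ t ∈ Icc (0 : ℝ) s1, HasDerivWithinAt ψ
        (((m : ℝ) + 3 - δ) * (-(((m : ℝ) + 2) * volF K t) / volA K t) -
          ((m : ℝ) + 2) * (-(volA K t + momD K t) / momB K t)) (Ici 0) t := by
      intro t ht
      have htS : t < S := ht.2.trans_lt hs1S
      obtain ⟨hA, hB, -⟩ := facts t ht.1 htS
      have d1 := (volA_hasDeriv h ht.1 (hin t ht.1 htS)).log hA.ne'
      have d2 := (momB_hasDeriv h ht.1 (hin t ht.1 htS)).log hB.ne'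
      have e : ((m + 1 : ℕ) : ℝ) + 1 = (m : ℝ) + 2 := by push_cast; ring
      rw [e] at d1
      refine (((d1.const_mul ((m : ℝ) + 3)).sub (d2.const_mul ((m : ℝ) + 2))).sub
        (d1.const_mul δ)).congr_deriv ?_
      ring
    refine image_le_of_deriv_right_lt_deriv_boundary' (B := fun _ => ψ 0) (B' := fun _ => 0)
      (fun t ht => ((hd t ht).mono Icc_subset_Ici_self).continuousWithinAt)
      (fun t ht => (hd t (Ico_subset_Icc_self ht)).mono (Ici_subset_Ici.2 ht.1)) le_rfl
      continuousOn_const (fun t _ => hasDerivWithinAt_const _ _ _) ?_ (right_mem_Icc.2 hs1)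
    intro t ht heq
    have htS : t < S := ht.2.trans hs1S
    obtain ⟨hA, hB, hF, hD, c1, c2, c3, -⟩ := facts t ht.1 htS
    have hle : G t ≤ G 0 := by
      have := mul_le_mul_of_nonneg_left (Real.log_le_log hA (hanti t ht.1)) hδ0.le
      simp only [hψ] at heq
      linarith
    have hGt : volA K t ^ (m + 3) ≤ 2 ^ (m + 2) * c * momB K t ^ (m + 2) := by
      have hl : ∀ u, 0 < volA K u → 0 < momB K u →
          G u = Real.log (volA K u ^ (m + 3) / momB K u ^ (m + 2)) := fun u hu hu' => by
        rw [Real.log_div (by positivity) (by positivity), Real.log_pow, Real.log_pow]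
        simp [hG]
      rw [hl t hA hB, hl 0 a0 b0, Real.log_le_log_iff (by positivity) (by positivity),
        div_le_iff₀ (by positivity)] at hle
      refine hle.trans (le_of_eq ?_)
      rw [hc]
      field_simp
    have key := step_ineq (m := m) (H := momD K t / ((m : ℝ) + 1)) hA hB hF (by positivity) hc0.le
      hc1.le c1 c2 c3 hGt
    rw [mul_div_cancel₀ _ (by positivity : (m : ℝ) + 1 ≠ 0)] at key
    have e : ((m : ℝ) + 3 - δ) * (-(((m : ℝ) + 2) * volF K t) / volA K t) -
        ((m : ℝ) + 2) * (-(volA K t + momD K t) / momB K t) =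
        ((m : ℝ) + 2) / (volA K t * momB K t) * ((volA K t + momD K t) * volA K t -
          ((m : ℝ) + 3 - δ) * (momB K t * volF K t)) := by
      field_simp
      ring
    rw [e]
    refine mul_neg_of_pos_of_neg (by positivity) ?_
    have : 0 < (1 - c - δ) * (momB K t * volF K t) :=
      mul_pos (by rw [hδ]; linarith) (mul_pos hB hF)
    linarith
  set L := Real.exp (Real.log (volA K 0) +
    (((m : ℝ) + 2) * Real.log 2 - Real.log ((m : ℝ) + 3) - G 0) / δ) with hL
  have lower : ∀ t, 0 ≤ t → t < S → L ≤ volA K t := by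
    intro t ht htS
    obtain ⟨hA, hB, -, -, -, -, -, c4⟩ := facts t ht htS
    have hl := Real.log_le_log (by positivity) c4
    rw [Real.log_mul (by positivity) (by positivity), Real.log_mul (by positivity) (by positivity),
      Real.log_pow, Real.log_pow, Real.log_pow] at hl
    push_cast at hl
    have hm := main t ht htS
    simp only [hψ, hG] at hm
    rw [← Real.le_log_iff_exp_le hA] at *
    have : (((m : ℝ) + 2) * Real.log 2 - Real.log ((m : ℝ) + 3) - G 0) / δ ≤
        Real.log (volA K t) - Real.log (volA K 0) := by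
      rw [div_le_iff₀ hδ0]
      simp only [hG]
      linarith
    linarith
  set u := fun k : ℕ => S - S / ((k : ℝ) + 1) with hu
  have hu0 : ∀ k, 0 ≤ u k := fun k => by
    simp only [hu, sub_nonneg]
    exact div_le_self hS0.le (by linarith [(Nat.cast_nonneg k : (0 : ℝ) ≤ k)])
  have huS : ∀ k, u k < S := fun k => by
    simp only [hu]; linarith [div_pos hS0 (Nat.cast_add_one_pos k : (0 : ℝ) < (k : ℝ) + 1)]
  set P := fun k : ℕ => K ∩ quad (m + 2) (u k) with hP
  have hmono : Antitone P := fun i j hij => inter_subset_inter_right _ fun x hx l => by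
    refine le_trans ?_ (hx l)
    simp only [hu]
    gcongr
  have hlim := tendsto_measure_iInter_atTop (μ := volume) (s := P)
    (fun k => (h.compact.inter_right (quad_closed _)).measurableSet.nullMeasurableSet) hmono
    ⟨0, (h.compact.inter_right (quad_closed _)).measure_lt_top.ne⟩
  have hnull : volume (⋂ k, P k) = 0 := by
    refine measure_eq_zero_iff_ae_notMem.2 ?_
    filter_upwards [ae_ne_const (n := m + 2) S] with x hx hmem
    simp only [hP, mem_iInter, mem_inter_iff] at hmem
    have hle : ∀ i, S < x i := fun i => by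
      refine lt_of_le_of_ne (le_of_forall_lt fun v hv => ?_) (hx i).symm
      obtain ⟨k, hk⟩ := exists_nat_gt (S / (S - v))
      have hp : 0 < S - v := by linarith
      rw [div_lt_iff₀ hp] at hk
      have := (hmem k).2 i
      refine lt_of_lt_of_le ?_ this
      simp only [hu]
      rw [lt_sub_iff_add_lt, add_comm, ← lt_sub_iff_add_lt,
        div_lt_iff₀ (by positivity)]
      nlinarith
    obtain ⟨i, -, hi⟩ := Finset.exists_min_image Finset.univ x ⟨0, Finset.mem_univ _⟩
    have hc' := ones_mem h (hS0.trans (hle i)).le (hmem 0).1 fun j => hi j (Finset.mem_univ j)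
    set v := (S + x i) / 2 with hv
    have hv' : v ∈ U := by
      have := h.convex.combo_interior_self_mem_interior h0U hc' (a := 1 - v / x i) (b := v / x i)
        (by rw [sub_pos, div_lt_one (hS0.trans (hle i))]; linarith [hle i])
        (div_nonneg (by linarith [hle i]) (hS0.trans (hle i)).le) (by ring)
      show (fun _ : Fin (m + 2) => v) ∈ interior K
      convert this using 1
      funext j
      simp [div_mul_cancel₀ _ (hS0.trans (hle i)).ne']
    linarith [le_csSup hUb hv', hle i]
  rw [hnull] at hlim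
  have hlim' := (ENNReal.tendsto_toReal ENNReal.zero_ne_top).comp hlim
  have : L ≤ 0 := ge_of_tendsto hlim' (Eventually.of_forall fun k => lower (u k) (hu0 k) (huS k))
  exact absurd this (not_le.2 (Real.exp_pos _))

theorem mean_bound : ∀ {n : ℕ} {K : Set (Fin (n + 1) → ℝ)}, SymBody K →
    (4 * ∫ x in K, |x 0|) ^ (n + 1) ≤ volume.real K ^ (n + 2) := by
  intro n
  induction n with
  | zero => intro K h; simpa using base_case h
  | succ m ih => intro K h; exact inductive_step m (fun T hT => ih hT) h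

theorem ratio_bound {d : ℕ} {K : Set (Fin (d + 1) → ℝ)} (h : SymBody K) :
    (covMat K).det / volume.real K ^ 2 ≤
      (((d : ℝ) + 2) / (8 * ((d : ℝ) + 3))) ^ (d + 1) := by
  have hV := h.vol_pos
  have hq := second_le h
  have hm := mean_bound h
  rw [h.det_covMat]
  have hq0 : 0 ≤ meanSqCoord K :=
    div_nonneg (setIntegral_nonneg h.compact.measurableSet fun x _ => sq_nonneg _) hV.le
  set b := meanAbs K with hb
  set V := volume.real K
  have hb0 : 0 ≤ b :=
    div_nonneg (setIntegral_nonneg h.compact.measurableSet fun x _ => abs_nonneg _) hV.le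
  have hbV : (4 * b) ^ (d + 1) ≤ V := by
    rw [hb, meanAbs, ← mul_div_assoc, div_pow, div_le_iff₀ (by positivity)]
    exact hm.trans (le_of_eq (by ring))
  rw [div_le_iff₀ (by positivity)]
  calc meanSqCoord K ^ (d + 1) ≤ (2 * ((d : ℝ) + 2) / ((d : ℝ) + 3) * b ^ 2) ^ (d + 1) :=
        pow_le_pow_left₀ hq0 hq _
    _ = (((d : ℝ) + 2) / (8 * ((d : ℝ) + 3))) ^ (d + 1) * ((4 * b) ^ (d + 1)) ^ 2 := by
        rw [← pow_mul, mul_comm (d + 1) 2, pow_mul, ← mul_pow]
        congr 1
        field_simp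
        ring
    _ ≤ _ := by gcongr

theorem isoConst_lt_all {d : ℕ} (hd : 1 ≤ d) {K : Set (Fin (d + 1) → ℝ)} (h : SymBody K) :
    isoConst K < isoConst (simplex (d + 1)) := by
  have h3 : 0 ≤ (covMat K).det / volume.real K ^ 2 := by
    rw [h.det_covMat]
    exact div_nonneg (pow_nonneg
      (div_nonneg (setIntegral_nonneg h.compact.measurableSet fun x _ => sq_nonneg _) h.vol_pos.le)
      _) (by positivity)
  refine Real.rpow_lt_rpow h3 ?_ (by positivity)
  refine (ratio_bound h).trans_lt ?_
  have hn := numeric_all (d + 1) (by omega)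
  rw [Vale.Agent.P254.simplex_det]
  push_cast at hn ⊢
  have e : (d : ℝ) + 1 + 2 = (d : ℝ) + 3 := by ring
  have e' : (d : ℝ) + 1 + 1 = (d : ℝ) + 2 := by ring
  rw [e, e', div_pow, mul_pow, div_lt_div_iff₀ (by positivity) (by positivity)]
  rw [e'] at hn
  calc ((d : ℝ) + 2) ^ (d + 1) * (((d : ℝ) + 2) ^ (d + 1 + 1) * ((d : ℝ) + 3) ^ (d + 1))
      = ((d : ℝ) + 2) ^ (2 * (d + 1) + 1) * ((d : ℝ) + 3) ^ (d + 1) := by ring
    _ < 8 ^ (d + 1) * ((d + 1).factorial : ℝ) ^ 2 * ((d : ℝ) + 3) ^ (d + 1) := by gcongr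
    _ = _ := by ring

end Vale.Agent.P254s
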