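import Vale.Agent.P254.Sym
import Vale.Agent.P254.Chamber
import Vale.Agent.P074.BM

/-!
# P254: symmetric bodies, orthant pieces and layers by the smallest coordinate
-/

namespace Vale.Agent.P254s

open MeasureTheory Finset
open Vale.Agent.P254 (SymBody act act_preserving act_embedding sgn abs_sgn ae_generic)
open Vale.Agent.P074.BM (sect)

variable {n : ℕ}

/-- The shifted closed orthant. -/
def quad (n : ℕ) (s : ℝ) : Set (Fin n → ℝ) := {x | ∀ i, s ≤ x i}

theorem quad_closed (s : ℝ) : IsClosed (quad n s) := by
  have : quad n s = ⋂ i, {x : Fin n → ℝ | s ≤ x i} := by ext; simp [quad]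
  rw [this]
  exact isClosed_iInter fun i => isClosed_le continuous_const (continuous_apply i)

theorem quad_meas (s : ℝ) : MeasurableSet (quad n s) := (quad_closed s).measurableSet

theorem fold {S : Set (Fin n → ℝ)} (h : SymBody S) {g : (Fin n → ℝ) → ℝ} (hg : Continuous g)
    (hi : ∀ b : Fin n → Bool, ∀ x, g (act (1, b) x) = g x) :
    ∫ x in S, g x = (2 : ℝ) ^ n * ∫ x in S ∩ quad n 0, g x := by
  classical
  have hint : IntegrableOn g S volume := hg.continuousOn.integrableOn_compact h.compact
  set f := (quad n 0).indicator g with hf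
  have key : ∀ b : Fin n → Bool, ∫ x in S, f (act (1, b) x) = ∫ x in S ∩ quad n 0, g x := by
    intro b
    rw [h.integral_act (1, b) f, hf, setIntegral_indicator (quad_meas 0)]
  have hsum : ∀ᵐ x ∂(volume.restrict S), ∑ b : Fin n → Bool, f (act (1, b) x) = g x := by
    filter_upwards [ae_restrict_of_ae (ae_generic (n := n))] with x hx
    set b0 : Fin n → Bool := fun i => decide (0 < x i) with hb0
    rw [Finset.sum_eq_single b0]
    · rw [hf, Set.indicator_of_mem, hi]
      intro i
      simp only [act, hb0, sgn, Equiv.Perm.one_apply]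
      by_cases hp : 0 < x i
      · simp [hp, hp.le]
      · simp [hp]; linarith [not_lt.1 hp]
    · intro b _ hne
      obtain ⟨i, hi'⟩ := Function.ne_iff.1 hne
      apply Set.indicator_of_notMem
      intro hmem
      have := hmem i
      have hx0 := hx.1 i
      simp only [act, hb0, sgn, Equiv.Perm.one_apply] at this hi'
      cases hb : b i <;> simp [hb] at this hi' <;> exact hx0 (by linarith)
    · simp
  have hib : ∀ b : Fin n → Bool, IntegrableOn (fun x => f (act (1, b) x)) S volume := by
    intro b
    have e : (fun x => f (act (1, b) x)) = (act (1, b) ⁻¹' quad n 0).indicator g := by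
      funext x
      by_cases hx : act (1, b) x ∈ quad n 0
      · rw [hf, Set.indicator_of_mem hx, Set.indicator_of_mem (show x ∈ _ from hx), hi]
      · rw [hf, Set.indicator_of_notMem hx, Set.indicator_of_notMem (show x ∉ _ from hx)]
    rw [e]
    exact hint.indicator ((act_preserving (1, b)).measurable (quad_meas 0))
  rw [← integral_congr_ae hsum, integral_finsetSum _ fun b _ => hib b]
  simp [key]

/-- The body of points whose modulus vector, shifted by `s`, is in the body. -/
def shrink (K : Set (Fin n → ℝ)) (s : ℝ) : Set (Fin n → ℝ) := {x | (fun i => |x i| + s) ∈ K}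

theorem ones_mem {K : Set (Fin n → ℝ)} (h : SymBody K) {s : ℝ} (hs : 0 ≤ s) {x : Fin n → ℝ}
    (hx : x ∈ K) (hle : ∀ i, s ≤ x i) : (fun _ => s) ∈ K :=
  h.mem_of_abs_le hx fun i => by rw [abs_of_nonneg hs]; exact (hle i).trans (le_abs_self _)

theorem zero_interior {K : Set (Fin n → ℝ)} (h : SymBody K) : (0 : Fin n → ℝ) ∈ interior K := by
  obtain ⟨x, hx⟩ := h.interior_ne
  have hneg : -x ∈ interior K := by
    have hsub : Neg.neg ⁻¹' interior K ⊆ interior K := by
      refine interior_maximal (fun y hy => ?_) (isOpen_interior.preimage continuous_neg)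
      exact h.mem_of_abs_le (interior_subset hy) fun i => by simp
    exact hsub (by simpa using hx)
  have := h.convex.interior hx hneg (a := 1 / 2) (b := 1 / 2) (by norm_num) (by norm_num)
    (by norm_num)
  simpa using this

theorem symBody_shrink {K : Set (Fin n → ℝ)} (h : SymBody K) {s : ℝ} (hs : 0 ≤ s)
    (hin : (fun _ => s) ∈ interior K) : SymBody (shrink K s) := by
  have hcont : Continuous fun (x : Fin n → ℝ) i => |x i| + s := by fun_prop
  refine ⟨fun x hx y hy a b ha hb hab => ?_, ?_, ?_, fun x hx i => ?_, fun σ x hx => h.perm σ _ hx⟩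
  · refine h.mem_of_abs_le (h.convex hx hy ha hb hab) fun i => ?_
    simp only [Pi.add_apply, Pi.smul_apply, smul_eq_mul]
    have h1 : |a * x i + b * y i| ≤ a * |x i| + b * |y i| := by
      refine (abs_add_le _ _).trans ?_
      rw [abs_mul, abs_mul, abs_of_nonneg ha, abs_of_nonneg hb]
    rw [abs_of_nonneg (by positivity : 0 ≤ |a * x i + b * y i| + s)]
    refine le_trans ?_ (le_abs_self _)
    have : s = a * s + b * s := by rw [← add_mul, hab, one_mul]
    linarith
  · refine h.compact.of_isClosed_subset (h.compact.isClosed.preimage hcont) fun x hx => ?_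
    exact h.mem_of_abs_le hx fun i => by
      rw [abs_of_nonneg (by positivity : 0 ≤ |x i| + s)]; linarith
  · exact ⟨0, interior_maximal (Set.preimage_mono interior_subset) (isOpen_interior.preimage hcont)
      (by simpa using hin)⟩
  · show (fun j => |Function.update x i (-x i) j| + s) ∈ K
    convert (show (fun j => |x j| + s) ∈ K from hx) using 1
    funext j
    rcases eq_or_ne j i with rfl | hj <;> simp [*]

theorem symBody_sect {K : Set (Fin (n + 1) → ℝ)} (h : SymBody K) :
    SymBody (sect K 0) := by
  have hcont : Continuous fun z : Fin n → ℝ => (Fin.cons 0 z : Fin (n + 1) → ℝ) :=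
    continuous_const.finCons continuous_id
  refine ⟨fun x hx y hy a b ha hb hab => ?_, Vale.Agent.P074.BM.isCompact_sect h.compact 0, ?_,
    fun x hx i => ?_, fun σ x hx => ?_⟩
  · have := h.convex hx hy ha hb hab
    show (Fin.cons 0 (a • x + b • y) : Fin (n + 1) → ℝ) ∈ K
    convert this using 1
    funext j
    refine Fin.cases ?_ (fun k => ?_) j <;> simp
  · exact ⟨0, interior_maximal (Set.preimage_mono interior_subset) (isOpen_interior.preimage hcont)
      (by
        show (Fin.cons 0 (0 : Fin n → ℝ) : Fin (n + 1) → ℝ) ∈ interior K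
        convert zero_interior h using 1
        funext j
        refine Fin.cases ?_ (fun k => ?_) j <;> simp)⟩
  · have := h.flip _ hx i.succ
    show (Fin.cons 0 (Function.update x i (-x i)) : Fin (n + 1) → ℝ) ∈ K
    convert this using 1
    rw [Fin.cons_update]
    simp
  · have := h.perm (Equiv.Perm.decomposeFin.symm (0, σ)) _ hx
    show (Fin.cons 0 (fun i => x (σ i)) : Fin (n + 1) → ℝ) ∈ K
    convert this using 1
    funext j
    refine Fin.cases ?_ (fun k => ?_) j <;> simp

/-- The translated section of the orthant part at level `t`. -/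
def layer (K : Set (Fin (n + 1) → ℝ)) (t : ℝ) : Set (Fin n → ℝ) :=
  sect K t ∩ quad n t

theorem layer_formula {K : Set (Fin (n + 1) → ℝ)} (h : SymBody K) {g : (Fin (n + 1) → ℝ) → ℝ}
    (hg : Continuous g) (hi : ∀ (σ : Equiv.Perm (Fin (n + 1))) x, g (fun i => x (σ i)) = g x)
    (s : ℝ) :
    IntegrableOn (fun t => ∫ z in layer K t, g (Fin.cons t z)) (Set.Ici s) ∧
      ∫ x in K ∩ quad (n + 1) s, g x =
        ((n : ℝ) + 1) * ∫ t in Set.Ici s, ∫ z in layer K t, g (Fin.cons t z) := by
  classical
  set Q := fun i : Fin (n + 1) => K ∩ quad (n + 1) s ∩ {x | ∀ j, x i ≤ x j} with hQ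
  have hclosed : ∀ i : Fin (n + 1), IsClosed {x : Fin (n + 1) → ℝ | ∀ j, x i ≤ x j} := fun i => by
    have : {x : Fin (n + 1) → ℝ | ∀ j, x i ≤ x j} = ⋂ j, {x | x i ≤ x j} := by ext; simp
    rw [this]
    exact isClosed_iInter fun j => isClosed_le (continuous_apply i) (continuous_apply j)
  have hQc : ∀ i, IsCompact (Q i) := fun i =>
    (h.compact.inter_right (quad_closed s)).inter_right (hclosed i)
  have hQm : ∀ i, NullMeasurableSet (Q i) := fun i => (hQc i).measurableSet.nullMeasurableSet
  have hU : (⋃ i, Q i) = K ∩ quad (n + 1) s := by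
    refine Set.Subset.antisymm (Set.iUnion_subset fun i => Set.inter_subset_left) fun x hx => ?_
    obtain ⟨i, -, hi'⟩ := Finset.exists_min_image univ x ⟨0, mem_univ _⟩
    exact Set.mem_iUnion.2 ⟨i, hx, fun j => hi' j (mem_univ j)⟩
  have hd : Pairwise (Function.onFun (AEDisjoint volume) Q) := by
    intro i j hij
    refine measure_eq_zero_iff_ae_notMem.2 ?_
    filter_upwards [ae_generic (n := n + 1)] with x hx hmem
    have : x i = x j := le_antisymm (hmem.1.2 j) (hmem.2.2 i)
    exact hx.2 i j hij (by rw [this])
  have hQ0 : ∀ i, ∫ x in Q i, g x = ∫ x in Q 0, g x := by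
    intro i
    set σ : Equiv.Perm (Fin (n + 1)) := Equiv.swap 0 i with hσ
    set T : (Fin (n + 1) → ℝ) → (Fin (n + 1) → ℝ) := act (σ, fun _ => true) with hT
    have hTx : ∀ x j, T x j = x (σ j) := fun x j => by simp [hT, act, sgn]
    have hTe : ∀ x, T x = fun j => x (σ j) := fun x => funext (hTx x)
    have hTT : ∀ x, T (T x) = x := fun x => funext fun j => by simp [hTx, hσ]
    have hsw : ∀ j, σ (σ j) = j := fun j => by simp [hσ]
    have hpre : T ⁻¹' Q 0 = Q i := by
      ext x
      simp only [hQ, Set.mem_preimage, Set.mem_inter_iff, quad, Set.mem_ofPred_eq, hTx]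
      constructor
      · rintro ⟨⟨hK, hq⟩, hm⟩
        refine ⟨⟨?_, fun j => by simpa [hsw] using hq (σ j)⟩, fun j => ?_⟩
        · have := h.act_mem (σ, fun _ => true) hK
          rwa [← hT, hTT] at this
        · simpa [hsw, hσ] using hm (σ j)
      · rintro ⟨⟨hK, hq⟩, hm⟩
        exact ⟨⟨h.act_mem _ hK, fun j => hq _⟩, fun j => by simpa [hσ] using hm (σ j)⟩
    have := (act_preserving (σ, fun _ => true)).setIntegral_preimage_emb
      (act_embedding _) g (Q 0)
    rw [← hT, hpre] at this
    simpa only [hTe, hi] using this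
  set e := (MeasurableEquiv.piFinSuccAbove (fun _ : Fin (n + 1) => ℝ) 0).symm with he
  have hmp : MeasurePreserving e volume volume :=
    (volume_preserving_piFinSuccAbove (fun _ : Fin (n + 1) => ℝ) 0).symm
  have hee : ∀ p : ℝ × (Fin n → ℝ), e p = Fin.cons p.1 p.2 := fun p => by
    simp [he, MeasurableEquiv.piFinSuccAbove_symm_apply, Fin.insertNthEquiv, Fin.insertNth_zero']
  have hm : MeasurableSet (e ⁻¹' Q 0) := e.measurable (hQc 0).measurableSet
  set F := fun p : ℝ × (Fin n → ℝ) => (e ⁻¹' Q 0).indicator (fun p => g (e p)) p with hF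
  have hFi : Integrable F (volume.prod volume) := by
    rw [← Measure.volume_eq_prod]
    refine (integrable_indicator_iff hm).2 ?_
    exact (hmp.integrableOn_comp_preimage e.measurableEmbedding).2
      (hg.continuousOn.integrableOn_compact (hQc 0))
  have hinner : ∀ t, ∫ z, F (t, z) =
      (Set.Ici s).indicator (fun t => ∫ z in layer K t, g (Fin.cons t z)) t := by
    intro t
    by_cases ht : t ∈ Set.Ici s
    · have ht' : s ≤ t := ht
      have hl : MeasurableSet (layer K t) :=
        (Vale.Agent.P074.BM.isCompact_sect h.compact t).measurableSet.inter (quad_meas t)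
      rw [Set.indicator_of_mem ht, ← integral_indicator hl]
      congr 1
      funext z
      have hiff : (t, z) ∈ e ⁻¹' Q 0 ↔ z ∈ layer K t := by
        simp only [hQ, Set.mem_preimage, hee, Set.mem_inter_iff, quad, layer, sect,
          Set.mem_ofPred_eq]
        constructor
        · exact fun hh => ⟨hh.1.1, fun i => by simpa using hh.2 i.succ⟩
        · exact fun hh => ⟨⟨hh.1, fun i => Fin.cases (by simpa using ht')
            (fun k => by simpa using ht'.trans (hh.2 k)) i⟩,
            fun i => Fin.cases (by simp) (fun k => by simpa using hh.2 k) i⟩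
      by_cases hz : z ∈ layer K t
      · simp only [hF, Set.indicator_of_mem hz, Set.indicator_of_mem (hiff.2 hz), hee]
      · simp only [hF, Set.indicator_of_notMem hz, Set.indicator_of_notMem (mt hiff.1 hz)]
    · rw [Set.indicator_of_notMem ht]
      refine integral_eq_zero_of_ae (Filter.Eventually.of_forall fun z => ?_)
      refine Set.indicator_of_notMem (fun hz => ht ?_) _
      have := hz.1.2 0
      simpa [hee] using this
  have h1 := hFi.integral_prod_left
  simp only [hinner] at h1
  refine ⟨(integrable_indicator_iff measurableSet_Ici).1 h1, ?_⟩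
  have hint : IntegrableOn g (K ∩ quad (n + 1) s) volume :=
    hg.continuousOn.integrableOn_compact (h.compact.inter_right (quad_closed s))
  rw [← hU] at hint
  rw [← hU, integral_iUnion_ae hQm hd hint, tsum_fintype]
  simp only [hQ0, sum_const, card_univ, Fintype.card_fin, nsmul_eq_mul]
  push_cast
  congr 1
  rw [← hmp.setIntegral_preimage_emb e.measurableEmbedding g (Q 0), ← integral_indicator hm,
    Measure.volume_eq_prod, integral_prod _ hFi]
  exact (integral_congr_ae (Filter.Eventually.of_forall hinner)).trans
    (integral_indicator measurableSet_Ici)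

end Vale.Agent.P254s
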