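import Vale.Agent.P254s.Orth
import Vale.Agent.P254s.Concave
import Vale.Agent.P254.Moment

/-!
# P254: slices of a symmetric body, moments of one coordinate
-/

namespace Vale.Agent.P254s

open MeasureTheory Set
open scoped Pointwise
open Vale.Agent.P254 (SymBody meanAbs meanSqCoord tail tail_compact)
open Vale.Agent.P074.BM (sect isCompact_sect)

variable {d : ℕ}

/-- The volume of a slice orthogonal to the first coordinate. -/
noncomputable def slice (S : Set (Fin (d + 1) → ℝ)) (u : ℝ) : ℝ := volume.real (sect S u)

theorem slice_nonneg (S : Set (Fin (d + 1) → ℝ)) (u : ℝ) : 0 ≤ slice S u := ENNReal.toReal_nonneg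

theorem slice_formula {S : Set (Fin (d + 1) → ℝ)} (hS : IsCompact S) {φ : ℝ → ℝ}
    (hφ : IntegrableOn (fun x => φ (x 0)) S volume) :
    Integrable (fun u => slice S u * φ u) volume ∧
      ∫ x in S, φ (x 0) = ∫ u, slice S u * φ u := by
  set e := (MeasurableEquiv.piFinSuccAbove (fun _ : Fin (d + 1) => ℝ) 0).symm with he
  have hmp : MeasurePreserving e volume volume :=
    (volume_preserving_piFinSuccAbove (fun _ : Fin (d + 1) => ℝ) 0).symm
  have hee : ∀ p : ℝ × (Fin d → ℝ), e p = Fin.cons p.1 p.2 := fun p => by
    simp [he, MeasurableEquiv.piFinSuccAbove_symm_apply, Fin.insertNthEquiv, Fin.insertNth_zero']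
  have hm : MeasurableSet (e ⁻¹' S) := e.measurable hS.measurableSet
  set F := fun p : ℝ × (Fin d → ℝ) => (e ⁻¹' S).indicator (fun p => φ (e p 0)) p with hF
  have hFi : Integrable F (volume.prod volume) := by
    rw [← Measure.volume_eq_prod]
    exact (integrable_indicator_iff hm).2
      ((hmp.integrableOn_comp_preimage e.measurableEmbedding).2 hφ)
  have hinner : ∀ u, ∫ z, F (u, z) = slice S u * φ u := fun u => by
    have e1 : (fun z => F (u, z)) = (sect S u).indicator fun _ => φ u := by
      funext z
      by_cases hz : (u, z) ∈ e ⁻¹' S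
      · rw [indicator_of_mem (show z ∈ sect S u from by simpa [sect, hee] using hz)]
        simp only [hF, indicator_of_mem hz, hee, Fin.cons_zero]
      · rw [indicator_of_notMem (show z ∉ sect S u from by simpa [sect, hee] using hz)]
        simp only [hF, indicator_of_notMem hz]
    rw [e1, integral_indicator (isCompact_sect hS u).measurableSet, setIntegral_const, smul_eq_mul,
      slice]
  have h1 := hFi.integral_prod_left
  simp only [hinner] at h1
  refine ⟨h1, ?_⟩
  rw [← hmp.setIntegral_preimage_emb e.measurableEmbedding _ S, ← integral_indicator hm,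
    Measure.volume_eq_prod, integral_prod _ hFi]
  exact integral_congr_ae (Filter.Eventually.of_forall hinner)

variable {S : Set (Fin (d + 1) → ℝ)}

theorem slice_even (h : SymBody S) (u : ℝ) : slice S |u| = slice S u := by
  have key : ∀ u v : ℝ, |u| ≤ |v| → sect S v ⊆ sect S u := fun u v huv z hz =>
    h.mem_of_abs_le hz fun i => Fin.cases (by simpa using huv) (fun k => by simp) i
  rw [slice, slice, Subset.antisymm (key u |u| (by simp)) (key |u| u (by simp))]

theorem slice_anti (h : SymBody S) : AntitoneOn (slice S) (Ici 0) := fun u hu v hv huv =>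
  ENNReal.toReal_mono (isCompact_sect h.compact u).measure_lt_top.ne <| measure_mono fun z hz =>
    h.mem_of_abs_le hz fun i => Fin.cases
      (by simpa [abs_of_nonneg (show (0 : ℝ) ≤ u from hu), abs_of_nonneg (show (0 : ℝ) ≤ v from hv)]
        using huv)
      (fun k => by simp) i

theorem slice_zero (hS : IsCompact S) : ∃ R : ℝ, 0 < R ∧ ∀ u, R < |u| → slice S u = 0 := by
  obtain ⟨R, hR, hsub⟩ := hS.isBounded.subset_closedBall_lt 0 0
  refine ⟨R, hR, fun u hu => ?_⟩
  have : sect S u = ∅ := eq_empty_of_forall_notMem fun z hz => by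
    have h1 : ‖(Fin.cons u z : Fin (d + 1) → ℝ)‖ ≤ R := mem_closedBall_zero_iff.1 (hsub hz)
    have h2 := norm_le_pi_norm (Fin.cons u z : Fin (d + 1) → ℝ) 0
    simp only [Fin.cons_zero, Real.norm_eq_abs] at h2
    linarith
  simp [slice, this]

theorem integral_abs_coord (h : SymBody S) {φ : ℝ → ℝ} (hφ : Continuous φ)
    {R : ℝ} (hR : 0 < R) (hz : ∀ u, R < |u| → slice S u = 0) :
    ∫ x in S, φ |x 0| = 2 * ∫ u in (0 : ℝ)..R, slice S u * φ u := by
  rw [(slice_formula h.compact (φ := fun t => φ |t|)
    ((by fun_prop : Continuous fun x : Fin (d + 1) → ℝ => φ |x 0|).continuousOn.integrableOn_compact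
      h.compact)).2]
  calc ∫ u, slice S u * φ |u| = ∫ u, (fun v => slice S v * φ v) |u| := by simp [slice_even h]
    _ = 2 * ∫ u in Ioi (0 : ℝ), slice S u * φ u := integral_comp_abs (f := fun v => slice S v * φ v)
    _ = _ := by
      rw [intervalIntegral.integral_of_le hR.le]
      congr 1
      refine (setIntegral_eq_of_subset_of_forall_sdiff_eq_zero measurableSet_Ioi
        (fun u hu => hu.1) fun u hu => ?_)
      have hu0 : (0 : ℝ) < u := hu.1
      have : R < u := not_le.1 fun hle => hu.2 ⟨hu0, hle⟩
      rw [hz u (this.trans_le (le_abs_self u)), zero_mul]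

theorem slice_int (h : SymBody S) {φ : ℝ → ℝ} (hφ : Continuous φ) {a b : ℝ} (ha : 0 ≤ a)
    (hb : 0 ≤ b) : IntervalIntegrable (fun u => slice S u * φ u) volume a b := by
  refine IntervalIntegrable.mul_continuousOn ?_ hφ.continuousOn
  refine ((slice_anti h).mono fun x hx => ?_).intervalIntegrable
  rcases mem_uIcc.1 hx with ⟨hh, -⟩ | ⟨hh, -⟩ <;> exact le_trans (by assumption) hh

theorem slice_mul (h : SymBody S) {u v : ℝ} (hu : 0 < u) (hv : 0 < v) :
    slice S 0 * slice S (u + v) ≤ slice S u * slice S v := by
  have hc : ∀ t, IsCompact (sect S t) := isCompact_sect h.compact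
  have key : ∀ w : ℝ, ∀ s : ℝ, 0 < s → s < 1 → slice S 0 ^ (1 - s) * slice S w ^ s ≤
      slice S (s * w) := by
    intro w s hs0 hs1
    have := Vale.Agent.P074.BM.bm hs0 hs1 d (sect S 0) (sect S w) (sect S (s * w)) (hc _) (hc _) (hc _)
      fun a ha b hb => by
        have hm := h.convex ha hb (a := 1 - s) (b := s) (by linarith) hs0.le (by ring)
        show (Fin.cons (s * w) ((1 - s) • a + s • b) : Fin (d + 1) → ℝ) ∈ S
        convert hm using 1
        funext j
        refine Fin.cases ?_ (fun k => ?_) j <;> simp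
    have := ENNReal.toReal_mono (hc _).measure_lt_top.ne this
    rwa [ENNReal.toReal_mul, ← ENNReal.toReal_rpow, ← ENNReal.toReal_rpow] at this
  set t := u / (u + v) with ht
  have ht0 : 0 < t := div_pos hu (by linarith)
  have ht1 : t < 1 := (div_lt_one (by linarith)).2 (by linarith)
  have k1 := key (u + v) t ht0 ht1
  have k2 := key (u + v) (1 - t) (by linarith) (by linarith)
  have e1 : t * (u + v) = u := by rw [ht]; field_simp
  rw [e1] at k1
  rw [sub_sub_cancel, show (1 - t) * (u + v) = v by rw [sub_mul, e1]; ring] at k2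
  have a0 := slice_nonneg S 0
  have aw := slice_nonneg S (u + v)
  calc slice S 0 * slice S (u + v)
      = (slice S 0 ^ (1 - t) * slice S (u + v) ^ t) * (slice S 0 ^ t * slice S (u + v) ^ (1 - t)) := by
        rw [mul_mul_mul_comm, ← Real.rpow_add' a0 (by simp), ← Real.rpow_add' aw (by simp),
          sub_add_cancel, add_sub_cancel, Real.rpow_one, Real.rpow_one]
    _ ≤ _ := mul_le_mul k1 k2 (mul_nonneg (Real.rpow_nonneg a0 _) (Real.rpow_nonneg aw _))
        (slice_nonneg S u)

theorem tail_eq (hS : IsCompact S) {R : ℝ} (hz : ∀ u, R < |u| → slice S u = 0)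
    {u : ℝ} (hu : u ≤ R) : volume.real (tail S u) = ∫ v in u..R, slice S v := by
  have hm : MeasurableSet {x : Fin (d + 1) → ℝ | u ≤ x 0} :=
    measurableSet_le measurable_const (measurable_pi_apply 0)
  have e : (fun x : Fin (d + 1) → ℝ => (Ici u).indicator (fun _ => (1 : ℝ)) (x 0)) =
      {x : Fin (d + 1) → ℝ | u ≤ x 0}.indicator fun _ => (1 : ℝ) := by
    funext x
    by_cases hx : u ≤ x 0 <;> simp [indicator, hx]
  have hi : IntegrableOn (fun x : Fin (d + 1) → ℝ => (Ici u).indicator (fun _ => (1 : ℝ)) (x 0))
      S volume := by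
    rw [e]; exact (continuous_const.continuousOn.integrableOn_compact hS).indicator hm
  have h2 := (slice_formula hS hi).2
  rw [e, setIntegral_indicator hm, setIntegral_const, smul_eq_mul, mul_one] at h2
  rw [show tail S u = S ∩ {x | u ≤ x 0} from rfl, h2, intervalIntegral.integral_of_le hu]
  simp only [← indicator_mul_right _ (slice S), mul_one]
  rw [integral_indicator measurableSet_Ici, integral_Ici_eq_integral_Ioi]
  refine setIntegral_eq_of_subset_of_forall_sdiff_eq_zero measurableSet_Ioi (fun v hv => hv.1)
    fun v hv => ?_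
  have : R < v := not_le.1 fun hle => hv.2 ⟨hv.1, hle⟩
  exact hz v (this.trans_le (le_abs_self v))

theorem tail_swap (h : SymBody S) {R : ℝ} (hR : 0 < R) {φ : ℝ → ℝ} (hφ : Continuous φ) :
    ∫ u in (0 : ℝ)..R, φ u * (∫ v in u..R, slice S v) =
      ∫ v in (0 : ℝ)..R, slice S v * (∫ u in (0 : ℝ)..v, φ u) := by
  set μ := volume.restrict (Ioc (0 : ℝ) R) with hμ
  have : IsFiniteMeasure μ := ⟨by simp [hμ]⟩
  have hs : Integrable (slice S) μ := by
    have := slice_int h (φ := fun _ => 1) continuous_const le_rfl hR.le
    simp only [mul_one] at this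
    rwa [intervalIntegrable_iff_integrableOn_Ioc_of_le hR.le] at this
  have hp : Integrable φ μ := hφ.continuousOn.integrableOn_Icc.mono_set Ioc_subset_Icc_self
  have hi : Integrable (Function.uncurry fun u v : ℝ =>
      if u < v then φ u * slice S v else 0) (μ.prod μ) := by
    have hm : MeasurableSet {p : ℝ × ℝ | p.1 < p.2} := measurableSet_lt measurable_fst measurable_snd
    refine ((hp.mul_prod hs).indicator hm).congr (Filter.Eventually.of_forall fun p => ?_)
    simp [indicator, Function.uncurry]
  have hL : ∀ u ∈ Ioc (0 : ℝ) R, φ u * (∫ v in u..R, slice S v) =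
      ∫ v, (if u < v then φ u * slice S v else 0) ∂μ := by
    intro u hu
    rw [← intervalIntegral.integral_const_mul, intervalIntegral.integral_of_le hu.2]
    have : (fun v : ℝ => if u < v then φ u * slice S v else 0) =
        (Ioi u).indicator fun v => φ u * slice S v := by funext v; simp [indicator]
    rw [this, integral_indicator measurableSet_Ioi, hμ, Measure.restrict_restrict measurableSet_Ioi,
      show Ioi u ∩ Ioc 0 R = Ioc u R from Set.ext fun v =>
        ⟨fun hh => ⟨hh.1, hh.2.2⟩, fun hh => ⟨hh.1, hu.1.trans hh.1, hh.2⟩⟩]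
  have hRr : ∀ v ∈ Ioc (0 : ℝ) R, slice S v * (∫ u in (0 : ℝ)..v, φ u) =
      ∫ u, (if u < v then φ u * slice S v else 0) ∂μ := by
    intro v hv
    rw [← intervalIntegral.integral_const_mul, intervalIntegral.integral_of_le hv.1.le,
      integral_Ioc_eq_integral_Ioo]
    have : (fun u : ℝ => if u < v then φ u * slice S v else 0) =
        (Iio v).indicator fun u => slice S v * φ u := by
      funext u; simp [indicator, mul_comm (φ u)]
    rw [this, integral_indicator measurableSet_Iio, hμ, Measure.restrict_restrict measurableSet_Iio,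
      show Iio v ∩ Ioc 0 R = Ioo 0 v from Set.ext fun u =>
        ⟨fun hh => ⟨hh.2.1, hh.1⟩, fun hh => ⟨hh.2, hh.1, hh.2.le.trans hv.2⟩⟩]
  rw [intervalIntegral.integral_of_le hR.le, intervalIntegral.integral_of_le hR.le,
    setIntegral_congr_fun measurableSet_Ioc hL, setIntegral_congr_fun measurableSet_Ioc hRr]
  exact integral_integral_swap hi

theorem vol_eq (h : SymBody S) {R : ℝ} (hR : 0 < R) (hz : ∀ u, R < |u| → slice S u = 0) :
    volume.real S = 2 * ∫ u in (0 : ℝ)..R, slice S u := by
  have := integral_abs_coord h (φ := fun _ => 1) continuous_const hR hz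
  simpa using this

theorem slice_bounds (h : SymBody S) :
    volume.real S ^ 2 ≤ 4 * (∫ x in S, |x 0|) * slice S 0 ∧
      2 * (∫ x in S, |x 0|) * slice S 0 ≤ volume.real S ^ 2 := by
  obtain ⟨R0, hR0, hz0⟩ := slice_zero h.compact
  have hV := vol_eq h hR0 hz0
  have hM := integral_abs_coord h (φ := fun u => u) continuous_id hR0 hz0
  set F := slice S 0
  set J := ∫ u in (0 : ℝ)..R0, slice S u with hJ
  set W := ∫ u in (0 : ℝ)..R0, slice S u * u with hW
  have hi0 : IntervalIntegrable (slice S) volume 0 R0 := by
    simpa using slice_int h (φ := fun _ => 1) continuous_const le_rfl hR0.le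
  have hi1 := slice_int h (φ := fun u => u) continuous_id le_rfl hR0.le
  have hle : ∀ u, 0 ≤ u → slice S u ≤ F := fun u hu => slice_anti h (self_mem_Ici) hu hu
  have hJ0 : 0 < J := by linarith [h.vol_pos]
  have hF0 : 0 < F := by
    by_contra hF
    have : J ≤ 0 := by
      rw [hJ]
      refine (intervalIntegral.integral_mono_on hR0.le hi0 (g := fun _ => (0 : ℝ))
        intervalIntegrable_const fun u hu => (hle u hu.1).trans (not_lt.1 hF)).trans_eq ?_
      simp
    linarith
  refine ⟨?_, ?_⟩
  · set c := J / F with hc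
    have hc0 : 0 < c := div_pos hJ0 hF0
    have hcR : c ≤ R0 := by
      rw [hc, div_le_iff₀ hF0, hJ]
      refine (intervalIntegral.integral_mono_on hR0.le hi0 intervalIntegrable_const
        fun u hu => hle u hu.1).trans_eq ?_
      simp
    have a1 : ∫ u in (0 : ℝ)..c, (c - u) * slice S u ≤ ∫ u in (0 : ℝ)..c, (c - u) * F :=
      intervalIntegral.integral_mono_on hc0.le (by
        simpa [mul_comm] using slice_int h (φ := fun u => c - u) (by fun_prop) le_rfl hc0.le)
        ((by fun_prop : Continuous fun u : ℝ => (c - u) * F).intervalIntegrable _ _)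
        fun u hu => mul_le_mul_of_nonneg_left (hle u hu.1) (by linarith [hu.2])
    have a2 : 0 ≤ ∫ u in c..R0, (u - c) * slice S u :=
      intervalIntegral.integral_nonneg hcR fun u hu =>
        mul_nonneg (by linarith [hu.1]) (slice_nonneg S u)
    have a3 : ∫ u in (0 : ℝ)..c, (c - u) * F = F * c ^ 2 / 2 := by
      rw [intervalIntegral.integral_mul_const, intervalIntegral.integral_sub intervalIntegrable_const
        intervalIntegral.intervalIntegrable_id, intervalIntegral.integral_const, integral_id,
        smul_eq_mul]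
      ring
    have a4 : W - c * J = (∫ u in c..R0, (u - c) * slice S u) -
        ∫ u in (0 : ℝ)..c, (c - u) * slice S u := by
      have hi2 : ∀ a b : ℝ, 0 ≤ a → 0 ≤ b →
          IntervalIntegrable (fun u => (u - c) * slice S u) volume a b := fun a b ha hb => by
        simpa [mul_comm] using slice_int h (φ := fun u => u - c) (by fun_prop) ha hb
      have e : (fun u => (c - u) * slice S u) = fun u => -((u - c) * slice S u) := by funext u; ring
      rw [e, intervalIntegral.integral_neg, sub_neg_eq_add, add_comm,
        intervalIntegral.integral_add_adjacent_intervals (hi2 _ _ le_rfl hc0.le)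
          (hi2 _ _ hc0.le hR0.le), hW, hJ, ← intervalIntegral.integral_const_mul,
        ← intervalIntegral.integral_sub hi1 (hi0.const_mul c)]
      exact intervalIntegral.integral_congr fun u _ => by ring
    have e2 : F * c = J := by rw [hc]; field_simp
    rw [hV, hM]
    nlinarith [mul_le_mul_of_nonneg_left (show c * J / 2 ≤ W by
      nlinarith [a1, a2, a3, a4, e2]) hF0.le]
  · have key : ∀ u ∈ Ioo (0 : ℝ) R0, F * (∫ v in u..R0, slice S v) ≤ slice S u * J := by
      intro u hu
      have hs : ∫ v in u..R0, slice S v = ∫ v in (0 : ℝ)..(R0 - u), slice S (v + u) := by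
        rw [intervalIntegral.integral_comp_add_right (slice S)]; simp
      have hi' : IntervalIntegrable (fun v => slice S (v + u)) volume 0 (R0 - u) := by
        refine AntitoneOn.intervalIntegrable fun a ha b hb hab => slice_anti h ?_ ?_ (by linarith)
        all_goals
          rw [uIcc_of_le (by linarith [hu.2] : (0 : ℝ) ≤ R0 - u)] at ha hb
          simp only [mem_Ici]; linarith [ha.1, hb.1, hu.1]
      rw [hs, ← intervalIntegral.integral_const_mul]
      calc ∫ v in (0 : ℝ)..(R0 - u), F * slice S (v + u)
          ≤ ∫ v in (0 : ℝ)..(R0 - u), slice S u * slice S v := by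
            refine intervalIntegral.integral_mono_on_of_le_Ioo (by linarith [hu.2])
              (hi'.const_mul _) ?_ fun v hv => ?_
            · simpa [mul_comm] using (slice_int h (φ := fun _ => slice S u) continuous_const le_rfl
                (by linarith [hu.2] : (0 : ℝ) ≤ R0 - u))
            · rw [add_comm v u]; exact slice_mul h hu.1 hv.1
        _ ≤ slice S u * J := by
            rw [intervalIntegral.integral_const_mul, hJ]
            refine mul_le_mul_of_nonneg_left ?_ (slice_nonneg S u)
            exact intervalIntegral.integral_mono_interval le_rfl (by linarith [hu.2])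
              (by linarith [hu.1]) (Filter.Eventually.of_forall fun v => slice_nonneg S v) hi0
    have hsw := tail_swap h hR0 (φ := fun _ => (1 : ℝ)) continuous_const
    simp only [one_mul, intervalIntegral.integral_const, smul_eq_mul, mul_one, sub_zero] at hsw
    have hTanti : AntitoneOn (fun u => ∫ v in u..R0, slice S v) (uIcc 0 R0) := by
      rw [uIcc_of_le hR0.le]
      intro a ha b hb hab
      exact intervalIntegral.integral_mono_interval hab hb.2 le_rfl
        (Filter.Eventually.of_forall fun v => slice_nonneg S v)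
        (by simpa using slice_int h (φ := fun _ => 1) continuous_const ha.1 hR0.le)
    have : F * W ≤ J * J := by
      rw [hW, ← hsw, ← intervalIntegral.integral_const_mul]
      refine (intervalIntegral.integral_mono_on_of_le_Ioo hR0.le
        (hTanti.intervalIntegrable.const_mul F) (hi0.mul_const J) key).trans_eq ?_
      rw [intervalIntegral.integral_mul_const, ← hJ]
    rw [hV, hM]
    nlinarith

theorem tail_concave (h : SymBody S) {u w : ℝ} (hu : 0 ≤ u) (huw : u ≤ w) (hw : 0 < w)
    (hpos : 0 < volume.real (tail S w)) (h0 : 0 < volume.real (tail S 0)) :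
    ((1 - u / w) * volume.real (tail S 0) ^ (((d + 1 : ℕ) : ℝ)⁻¹) +
        u / w * volume.real (tail S w) ^ (((d + 1 : ℕ) : ℝ)⁻¹)) ^ (d + 1) ≤
      volume.real (tail S u) := by
  set s := u / w with hs
  have hs0 : 0 ≤ s := div_nonneg hu hw.le
  have hs1 : s ≤ 1 := (div_le_one hw).2 huw
  set A := volume.real (tail S 0)
  set B := volume.real (tail S w)
  set α := A ^ (((d + 1 : ℕ) : ℝ)⁻¹) with hα
  set β := B ^ (((d + 1 : ℕ) : ℝ)⁻¹) with hβ
  have hαp : 0 < α := Real.rpow_pos_of_pos h0 _
  have hβp : 0 < β := Real.rpow_pos_of_pos hpos _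
  have hαN : α ^ (d + 1) = A := Real.rpow_inv_natCast_pow h0.le (by omega)
  have hβN : β ^ (d + 1) = B := Real.rpow_inv_natCast_pow hpos.le (by omega)
  rcases eq_or_lt_of_le hs0 with he | hs0'
  · have : u = 0 := by
      have := he.symm; rw [hs, div_eq_zero_iff] at this; exact this.resolve_right hw.ne'
    rw [← he, this, sub_zero, one_mul, zero_mul, add_zero, hαN]
  rcases eq_or_lt_of_le hs1 with he | hs1'
  · have : u = w := by
      have := he; rw [hs, div_eq_one_iff_eq hw.ne'] at this; exact this
    rw [he, this, sub_self, zero_mul, one_mul, zero_add, hβN]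
  set D := (1 - s) * α + s * β with hD
  have hDp : 0 < D := add_pos (mul_pos (by linarith) hαp) (mul_pos hs0' hβp)
  set l := s * β / D with hl
  have hl0 : 0 < l := div_pos (mul_pos hs0' hβp) hDp
  have hl1 : l < 1 := by
    rw [hl, div_lt_one hDp, hD]; linarith [mul_pos (sub_pos.2 hs1') hαp]
  have hc : ∀ (t : ℝ) (r : ℝ), IsCompact ((r⁻¹ : ℝ) • tail S t) := fun t r =>
    (tail_compact h.compact t).smul _
  have hb := Vale.Agent.P074.BM.bm hl0 hl1 _ _ _ _ (hc 0 α) (hc w β) (hc u D) fun a ha b hb => by
    obtain ⟨p, hp, rfl⟩ := ha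
    obtain ⟨q, hq, rfl⟩ := hb
    refine ⟨(1 - s) • p + s • q, ⟨h.convex hp.1 hq.1 (by linarith) hs0 (by ring), ?_⟩, ?_⟩
    · show u ≤ (1 - s) * p 0 + s * q 0
      have hp0 : (0 : ℝ) ≤ p 0 := hp.2
      have hq0 : w ≤ q 0 := hq.2
      have : u = s * w := by rw [hs]; field_simp
      nlinarith [mul_nonneg (sub_nonneg.2 hs1) hp0, mul_le_mul_of_nonneg_left hq0 hs0]
    · funext i
      simp only [Pi.add_apply, Pi.smul_apply, smul_eq_mul, hl]
      field_simp
      rw [hD]; ring
  have hvol : ∀ (t r : ℝ), 0 < r → volume ((r⁻¹ : ℝ) • tail S t) =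
      ENNReal.ofReal (volume.real (tail S t) / r ^ (d + 1)) := fun t r hr => by
    rw [Measure.addHaar_smul, Module.finrank_fin_fun, abs_of_nonneg (by positivity), inv_pow,
      measureReal_def, div_eq_inv_mul, ENNReal.ofReal_mul (by positivity),
      ENNReal.ofReal_toReal (tail_compact h.compact t).measure_lt_top.ne]
  rw [hvol 0 α hαp, hvol w β hβp, hvol u D hDp, hαN, hβN, div_self h0.ne', div_self hpos.ne',
    ENNReal.ofReal_one, ENNReal.one_rpow, ENNReal.one_rpow, one_mul, ← ENNReal.ofReal_one,
    ENNReal.ofReal_le_ofReal_iff (by positivity), one_le_div (pow_pos hDp _)] at hb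
  exact hb

theorem second_le (h : SymBody S) :
    meanSqCoord S ≤ 2 * ((d : ℝ) + 2) / ((d : ℝ) + 3) * meanAbs S ^ 2 := by
  obtain ⟨R, hR, hz⟩ := slice_zero h.compact
  have hV := vol_eq h hR hz
  have hM := integral_abs_coord h (φ := fun u => u) continuous_id hR hz
  have hQ := integral_abs_coord h (φ := fun u => u ^ 2) (continuous_pow 2) hR hz
  simp only [sq_abs] at hQ
  set T := fun u => volume.real (tail S u) with hT
  have hTR : ∀ u, R < u → T u = 0 := fun u hu => by
    have : tail S u ⊆ tail S R := fun x hx => ⟨hx.1, hu.le.trans hx.2⟩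
    refine le_antisymm ?_ ENNReal.toReal_nonneg
    have h2 := ENNReal.toReal_mono (tail_compact h.compact R).measure_lt_top.ne
      (measure_mono (μ := volume) this)
    rw [← measureReal_def, ← measureReal_def, tail_eq h.compact hz le_rfl,
      intervalIntegral.integral_same] at h2
    exact h2
  have hT0 : T 0 = volume.real S / 2 := by
    simp only [hT, tail_eq h.compact hz hR.le]; linarith
  have hTanti : AntitoneOn T (Ici 0) := fun a _ b _ hab =>
    ENNReal.toReal_mono (tail_compact h.compact a).measure_lt_top.ne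
      (measure_mono fun x hx => ⟨hx.1, hab.trans hx.2⟩)
  have hI1 : ∫ u in (0 : ℝ)..R, T u = (∫ x in S, |x 0|) / 2 := by
    have := tail_swap h hR (φ := fun _ => (1 : ℝ)) continuous_const
    simp only [one_mul, intervalIntegral.integral_const, smul_eq_mul, mul_one, sub_zero] at this
    rw [intervalIntegral.integral_congr (g := fun u => ∫ v in u..R, slice S v) fun u hu => ?_]
    · linarith
    · rw [uIcc_of_le hR.le] at hu; exact tail_eq h.compact hz hu.2
  have hI2 : ∫ u in (0 : ℝ)..R, u * T u = (∫ x in S, x 0 ^ 2) / 4 := by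
    have h1 := tail_swap h hR (φ := fun u => u) continuous_id
    rw [intervalIntegral.integral_congr (g := fun u => u * ∫ v in u..R, slice S v) fun u hu => ?_,
      h1, hQ]
    · simp only [integral_id]
      rw [show (2 * ∫ u in (0 : ℝ)..R, slice S u * u ^ 2) / 4 =
          (1 / 2 : ℝ) * ∫ u in (0 : ℝ)..R, slice S u * u ^ 2 by ring,
        ← intervalIntegral.integral_const_mul]
      exact intervalIntegral.integral_congr fun v _ => by ring
    · rw [uIcc_of_le hR.le] at hu
      simp only [hT, tail_eq h.compact hz hu.2]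
  have hpos : 0 < T 0 := by rw [hT0]; linarith [h.vol_pos]
  have hI1p : 0 < ∫ u in (0 : ℝ)..R, T u := by
    rw [hI1]
    have h0 : (0 : ℝ) < ∫ x in S, |x 0| := by
      rw [setIntegral_pos_iff_support_of_nonneg_ae (μ := volume)
        (Filter.Eventually.of_forall fun x : Fin (d + 1) → ℝ => abs_nonneg (x 0))
        ((continuous_apply 0).abs.continuousOn.integrableOn_compact (μ := volume) h.compact)]
      refine lt_of_lt_of_le (isOpen_interior.measure_pos volume h.interior_ne) ?_
      refine measure_mono_ae ?_
      filter_upwards [Vale.Agent.P254.ae_generic (n := d + 1)] with x hx hxi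
      exact ⟨by simpa using hx.1 0, interior_subset hxi⟩
    linarith
  have := concave_moment (T := T) (N := d + 1) (by omega) hR hTanti
    (fun u => ENNReal.toReal_nonneg) hTR hpos
    (fun u w hu huw hw hTw => tail_concave h hu huw hw hTw hpos) hI1p
  rw [hI1, hI2, hT0] at this
  push_cast at this
  have hV0 := h.vol_pos
  rw [meanSqCoord, meanAbs, div_pow, ← mul_div_assoc, div_le_div_iff₀ hV0 (by positivity)]
  have hd : (0 : ℝ) < (d : ℝ) + 3 := by positivity
  have e : (d : ℝ) + 1 + 1 = (d : ℝ) + 2 := by ring
  have e' : (d : ℝ) + 1 + 2 = (d : ℝ) + 3 := by ring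
  rw [e, e'] at this
  rw [mul_div_assoc (2 : ℝ)]
  nlinarith [mul_le_mul_of_nonneg_left this hV0.le]

end Vale.Agent.P254s
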